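import Vale.Agent.P338.R3.H328.CellRun

/-!
P338-D, module CELL: the error form of FIX (`H334.FixQ.whole_exact_loc` with the bound `1 / 8` on the
error instead of the rounded value), and its form on real cells, as `H50.IO.unload_eq` wants it:
`|sg b (word) - 2 ^ s k| ≤ 2 ^ (s - 3)`.
-/

namespace Vale.Agent.P338.R3.H328

open GaussianInt (toComplex)
open Vale.Agent.P338.R3.H968 (CPar Cell sg cLoad)
open Vale.Agent.P338.R3.H334

section Abstract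

variable {Z E : Type} [NormedAddCommGroup E]
variable {re : Z → E} {qe : E → E} {qi : Z → Z} {P ρ ε : ℝ}

/-- The arithmetic of the dyadic bounds. -/
theorem eighth_arith {K₁ K₂ n₁ n₂ : ℝ} {Λ w g ν c s : ℕ} (hε : 0 ≤ ε) (hρ : 0 ≤ ρ)
    (hε' : ε ≤ 2 ^ c / 2 ^ s) (hρ' : ρ ≤ 2 ^ c / 2 ^ s) (k1 : 1 ≤ K₁) (_k2 : 1 ≤ K₂)
    (hK₁ : K₁ ≤ 2 ^ Λ) (hK₂ : K₂ ≤ 2 ^ Λ) (hP0 : 0 ≤ P) (hP : P ≤ 2 ^ g) (hn₁0 : 0 ≤ n₁)
    (hn₂0 : 0 ≤ n₂) (hn₁ : n₁ ≤ 2 ^ ν) (hn₂ : n₂ ≤ 2 ^ ν)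
    (hs : 3 * Λ + 2 * w + g + ν + c + 7 ≤ s) :
    ∃ e : ℝ, K₁ * (n₁ * (ε * 2 ^ w + ρ)) ≤ e ∧ e ≤ K₁ * 2 ^ w ∧
      K₂ * ((P * e * (3 * (K₁ * 2 ^ w)) + ρ) + n₂ * (ε * (P * (K₁ * 2 ^ w) ^ 2) + ρ)) ≤
        1 / 8 := by
  set L : ℝ := 2 ^ Λ with hL
  set W : ℝ := 2 ^ w with hW
  set G : ℝ := 2 ^ g with hG
  set N : ℝ := 2 ^ ν with hN
  set δ : ℝ := 2 ^ c / 2 ^ s with hδ
  have hL1 : 1 ≤ L := one_le_pow₀ (by norm_num)
  have hW1 : 1 ≤ W := one_le_pow₀ (by norm_num)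
  have hG1 : 1 ≤ G := one_le_pow₀ (by norm_num)
  have hN1 : 1 ≤ N := one_le_pow₀ (by norm_num)
  have hδ0 : 0 < δ := by positivity
  have hmain : L ^ 3 * W ^ 2 * G * N * δ * 128 ≤ 1 := by
    have e1 : L ^ 3 * W ^ 2 * G * N * δ * 128 = 2 ^ (3 * Λ + 2 * w + g + ν + c + 7) / 2 ^ s := by
      rw [hL, hW, hG, hN, hδ]
      rw [show (128 : ℝ) = 2 ^ 7 by norm_num]
      ring
    rw [e1]
    exact div_le_one_of_le₀ (pow_le_pow_right₀ (by norm_num) hs) (by positivity)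
  have he : K₁ * (n₁ * (ε * W + ρ)) ≤ 2 * (L * N * W * δ) := by
    have a1 : ε * W + ρ ≤ 2 * (W * δ) := by nlinarith
    have a2 : n₁ * (ε * W + ρ) ≤ N * (2 * (W * δ)) :=
      mul_le_mul hn₁ a1 (by positivity) (by positivity)
    calc _ ≤ L * (N * (2 * (W * δ))) := mul_le_mul hK₁ a2 (by positivity) (by positivity)
      _ = _ := by ring
  have hsmall : 2 * (L * N * W * δ) ≤ 1 := by
    have b1 : L * N * W * δ ≤ L ^ 3 * W ^ 2 * G * N * δ := by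
      have c1 : L ≤ L ^ 3 := le_self_pow₀ hL1 (by norm_num)
      have c2 : W ≤ W ^ 2 := le_self_pow₀ hW1 (by norm_num)
      calc L * N * W * δ ≤ L ^ 3 * N * W ^ 2 * δ := by gcongr
        _ ≤ L ^ 3 * N * W ^ 2 * δ * G := le_mul_of_one_le_right (by positivity) hG1
        _ = _ := by ring
    have b2 : 0 ≤ L ^ 3 * W ^ 2 * G * N * δ := by positivity
    nlinarith
  refine ⟨min (2 * (L * N * W * δ)) (K₁ * W), le_min he (by nlinarith), min_le_right _ _, ?_⟩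
  have hmin : min (2 * (L * N * W * δ)) (K₁ * W) ≤ 2 * (L * N * W * δ) := min_le_left _ _
  have hmin0 : 0 ≤ min (2 * (L * N * W * δ)) (K₁ * W) :=
    le_min (by positivity) (by positivity)
  have d1 : P * min (2 * (L * N * W * δ)) (K₁ * W) * (3 * (K₁ * W)) ≤
      G * (2 * (L * N * W * δ)) * (3 * (L * W)) := by
    have : K₁ * W ≤ L * W := mul_le_mul_of_nonneg_right hK₁ (by positivity)
    exact mul_le_mul (mul_le_mul hP hmin hmin0 (by positivity)) (by linarith) (by positivity)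
      (by positivity)
  have d2 : ε * (P * (K₁ * W) ^ 2) ≤ δ * (G * (L * W) ^ 2) := by
    have : K₁ * W ≤ L * W := mul_le_mul_of_nonneg_right hK₁ (by positivity)
    have h2 : (K₁ * W) ^ 2 ≤ (L * W) ^ 2 := by gcongr
    exact mul_le_mul hε' (mul_le_mul hP h2 (by positivity) (by positivity)) (by positivity)
      (by positivity)
  have d3 : n₂ * (ε * (P * (K₁ * W) ^ 2) + ρ) ≤
      N * (δ * (G * (L * W) ^ 2) + δ) :=
    mul_le_mul hn₂ (by linarith) (by positivity) (by positivity)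
  have d4 : K₂ * ((P * min (2 * (L * N * W * δ)) (K₁ * W) * (3 * (K₁ * W)) + ρ) +
      n₂ * (ε * (P * (K₁ * W) ^ 2) + ρ)) ≤
      L * ((G * (2 * (L * N * W * δ)) * (3 * (L * W)) + δ) +
        N * (δ * (G * (L * W) ^ 2) + δ)) :=
    mul_le_mul hK₂ (by linarith) (by positivity) (by positivity)
  refine d4.trans ?_
  set M : ℝ := L ^ 3 * W ^ 2 * G * N * δ with hM
  have m1 : L * (G * (2 * (L * N * W * δ)) * (3 * (L * W))) = 6 * M := by rw [hM]; ring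
  have m2 : L * (N * (δ * (G * (L * W) ^ 2))) = M := by rw [hM]; ring
  have m3 : L * (N * δ) ≤ M := by
    rw [hM]
    have c1 : L ≤ L ^ 3 := le_self_pow₀ hL1 (by norm_num)
    have c2 : 1 ≤ W ^ 2 := one_le_pow₀ hW1
    calc L * (N * δ) ≤ L ^ 3 * (N * δ) := by gcongr
      _ ≤ L ^ 3 * (N * δ) * (W ^ 2 * G) :=
          le_mul_of_one_le_right (by positivity) (one_le_mul_of_one_le_of_one_le c2 hG1)
      _ = _ := by ring
  have m4 : L * δ ≤ M := by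
    refine le_trans ?_ m3
    have : δ ≤ N * δ := le_mul_of_one_le_left hδ0.le hN1
    exact mul_le_mul_of_nonneg_left this (by positivity)
  have e1 : L * ((G * (2 * (L * N * W * δ)) * (3 * (L * W)) + δ) +
      N * (δ * (G * (L * W) ^ 2) + δ)) = L * (G * (2 * (L * N * W * δ)) * (3 * (L * W))) +
      L * (N * (δ * (G * (L * W) ^ 2))) + L * (N * δ) + L * δ := by ring
  rw [e1, m1, m2]
  linarith

end Abstract

section Local

variable {κ : Type} [Fintype κ] {m : ℕ}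

/-- **FIX, one array, error form.** `l₁` = forward steps, then the local product, then the
inverse steps `l₂`; `mt`, `mq` = the machine's maps modulo `2 ^ b`. If the exact complex run gives
an array of integers `k`, then the result of the machine is within `1 / 8` of `k`. -/
theorem whole_close_loc {s b c ν Λ w g : ℕ} {ε ρ κ' : ℝ} (hε : 0 ≤ ε) (hρ : 0 ≤ ρ)
    (hκ : 0 ≤ κ') (hε' : ε ≤ 2 ^ c / 2 ^ s) (hρ' : ρ ≤ 2 ^ c / 2 ^ s) (hκρ : κ' / 2 ^ s ≤ ρ)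
    {l₁ l₂ : List (AStep ((κ × Bool) × Fin m))}
    (h₁ : ∀ st ∈ l₁, Step.Ok (reA s) ε ρ st) (h₂ : ∀ st ∈ l₂, Step.Ok (reA s) ε ρ st)
    (hK₁ : prodK l₁ ≤ 2 ^ Λ) (hK₂ : prodK l₂ ≤ 2 ^ Λ) (hm : (m : ℝ) ≤ 2 ^ g)
    (hn₁ : (l₁.length : ℝ) ≤ 2 ^ ν) (hn₂ : (l₂.length : ℝ) ≤ 2 ^ ν)
    (hs : 3 * Λ + 2 * w + g + ν + c + 7 ≤ s) (hb : s + 3 * Λ + 2 * w + g + 10 ≤ b)
    {mt : AStep ((κ × Bool) × Fin m) →
      ((κ × Bool) × Fin m → GaussianInt) → (κ × Bool) × Fin m → GaussianInt}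
    (hmt : ∀ st ∈ l₁ ++ l₂, ∀ X, Bd b X → mt st X = wrapA b (st.it X))
    {f mq : ((κ × Bool) × Fin m → GaussianInt) → (κ × Bool) × Fin m → GaussianInt}
    (hf : locMulK κ m s κ' f) (hmq : ∀ X, Bd b X → mq X = wrapA b (f X))
    {X : (κ × Bool) × Fin m → GaussianInt} (hX : ‖reA s X‖ ≤ 2 ^ w)
    {k : (κ × Bool) × Fin m → ℤ}
    (hk : exRun l₂ (locMul κ m (exRun l₁ (reA s X))) = fun j => (k j : ℂ)) :
    ∀ j, ‖reC s (mtRun mt l₂ (mq (mtRun mt l₁ X)) j) - k j‖ ≤ 1 / 8 := by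
  have hb1 : 1 ≤ b := by omega
  have hsν : ν + c ≤ s := by omega
  have hQ := qOk_loc κ m s hκ hf
  have q := run_bd hε hρ hε' hρ' h₁ hK₁ hn₁ hsν hX
  have x1 : mtRun mt l₁ X = itRun l₁ X :=
    mtRun_eq hb1 (fun st hst => hmt st (List.mem_append_left _ hst))
      fun k _ => bd_of_norm (l := Λ + w + 2) (s := s) (by omega) (q k)
  have x2 : ‖reA s (itRun l₁ X)‖ ≤ 2 ^ (Λ + w + 2) := by
    have := q l₁.length
    rwa [List.take_length] at this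
  set Z := f (itRun l₁ X) with hZ
  have hκ1 : κ' / 2 ^ s ≤ 1 := by
    refine (hκρ.trans hρ').trans ?_
    exact div_le_one_of_le₀ (pow_le_pow_right₀ (by norm_num) (by omega)) (by positivity)
  have z1 : ‖reA s Z‖ ≤ 2 ^ (g + 2 * Λ + 2 * w + 5) := by
    have a1 := hQ.close (itRun l₁ X)
    have a2 := hQ.le (reA s (itRun l₁ X))
    have a3 : ‖reA s Z‖ ≤ ‖reA s Z - locMul κ m (reA s (itRun l₁ X))‖ +
        ‖locMul κ m (reA s (itRun l₁ X))‖ := by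
      have := norm_add_le (reA s Z - locMul κ m (reA s (itRun l₁ X)))
        (locMul κ m (reA s (itRun l₁ X)))
      simpa using this
    have a4 : (m : ℝ) * ‖reA s (itRun l₁ X)‖ ^ 2 ≤ 2 ^ g * (2 ^ (Λ + w + 2)) ^ 2 :=
      mul_le_mul hm (pow_le_pow_left₀ (norm_nonneg _) x2 2) (by positivity) (by positivity)
    have a5 : (2 : ℝ) ^ g * (2 ^ (Λ + w + 2)) ^ 2 = 2 ^ (g + 2 * Λ + 2 * w + 4) := by
      ring
    have a6 : (1 : ℝ) ≤ 2 ^ (g + 2 * Λ + 2 * w + 4) := one_le_pow₀ (by norm_num)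
    have a7 : (2 : ℝ) ^ (g + 2 * Λ + 2 * w + 5) = 2 * 2 ^ (g + 2 * Λ + 2 * w + 4) := by ring
    rw [a7]
    linarith
  have z2 : mq (itRun l₁ X) = Z := by
    rw [hmq _ (bd_of_norm (l := Λ + w + 2) (s := s) (by omega) x2)]
    exact wrapA_eq_self hb1 (bd_of_norm (l := g + 2 * Λ + 2 * w + 5) (s := s) (by omega) z1)
  have z3 : mtRun mt l₂ Z = itRun l₂ Z := by
    have q := run_bd hε hρ hε' hρ' h₂ hK₂ hn₂ hsν z1
    exact mtRun_eq hb1 (fun st hst => hmt st (List.mem_append_right _ hst))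
      fun k _ => bd_of_norm (l := Λ + (g + 2 * Λ + 2 * w + 5) + 2) (s := s) (by omega) (q k)
  have hQ' : QOk (reA s) (locMul κ m) f (m : ℝ) ρ :=
    ⟨hQ.nonneg, hQ.le, hQ.lip, fun X => (hQ.close X).trans hκρ⟩
  obtain ⟨e, e1, e2, e3⟩ := eighth_arith (w := w) (Λ := Λ) (ν := ν) (c := c) (g := g) (s := s)
    hε hρ hε' hρ' (one_le_prodK h₁) (one_le_prodK h₂) hK₁ hK₂ (Nat.cast_nonneg m) hm
    (Nat.cast_nonneg _) (Nat.cast_nonneg _) hn₁ hn₂ hs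
  have hq := (qpipe_close hε hρ h₁ h₂ hQ' (X := X) rfl hX e1 e2).trans e3
  rw [hk] at hq
  intro j
  rw [x1, z2, z3]
  exact (norm_le_pi_norm _ j).trans hq

end Local

/-! ### Real cells -/

section Cells

variable {κ : Type} [Fintype κ]

/-- **FIX on real cells, error form.** -/
theorem cells_close {P : CPar} {c ν Λ w g : ℕ} {ε ρ : ℝ} (hε : 0 ≤ ε)
    (hε' : ε ≤ 2 ^ c / 2 ^ P.s) (hρ' : ρ ≤ 2 ^ c / 2 ^ P.s) (hκρ : 4 / 2 ^ P.s ≤ ρ)
    {l₁ l₂ : List (CStep P κ)}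
    (h₁ : ∀ a ∈ l₁, Step.Ok (reA P.s) ε ρ a.st) (h₂ : ∀ a ∈ l₂, Step.Ok (reA P.s) ε ρ a.st)
    (hK₁ : prodK (l₁.map CStep.st) ≤ 2 ^ Λ) (hK₂ : prodK (l₂.map CStep.st) ≤ 2 ^ Λ)
    (hm : (P.nw : ℝ) ≤ 2 ^ g)
    (hn₁ : (l₁.length : ℝ) ≤ 2 ^ ν) (hn₂ : (l₂.length : ℝ) ≤ 2 ^ ν)
    (hs : 3 * Λ + 2 * w + g + ν + c + 7 ≤ P.s) (hb : P.s + 3 * Λ + 2 * w + g + 10 ≤ P.b)
    {X : CArr κ} (hX : ‖reA P.s (toG P X)‖ ≤ 2 ^ w) {k : (κ × Bool) × Fin P.nw → ℤ}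
    (hk : exRun (l₂.map CStep.st) (locMul κ P.nw (exRun (l₁.map CStep.st) (reA P.s (toG P X)))) =
      fun j => (k j : ℂ)) (u : κ) (o : Bool) (j : Fin P.nw) :
    |sg P.b (cRun l₂ (prC P (cRun l₁ X)) u o false j) - 2 ^ P.s * k ((u, o), j)| ≤
      2 ^ (P.s - 3) := by
  have hρ : 0 ≤ ρ := le_trans (by positivity) hκρ
  have h := whole_close_loc (κ := κ) (m := P.nw) (s := P.s) (b := P.b)
    (κ' := 4) hε hρ (by norm_num) hε' hρ' hκρ
    (l₁ := l₁.map CStep.st) (l₂ := l₂.map CStep.st)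
    (fun st hst => by
      obtain ⟨a, ha, rfl⟩ := List.mem_map.1 hst
      exact h₁ a ha)
    (fun st hst => by
      obtain ⟨a, ha, rfl⟩ := List.mem_map.1 hst
      exact h₂ a ha) hK₁ hK₂ hm (by simpa using hn₁) (by simpa using hn₂) hs hb
    (mt := mtW P) (fun _ _ _ _ => rfl) (locMulK_locF κ P.nw P.s)
    (mq := fun X => wrapA P.b (locF κ P.nw P.s X)) (fun _ _ => rfl) hX hk ((u, o), j)
  rw [← toG_cRun, ← toG_prC, ← toG_cRun] at h
  set z : ℤ := sg P.b (cRun l₂ (prC P (cRun l₁ X)) u o false j) with hz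
  have h2 := (Complex.abs_re_le_norm _).trans h
  have h3 : (reC P.s (toG P (cRun l₂ (prC P (cRun l₁ X))) ((u, o), j)) -
      (k ((u, o), j) : ℂ)).re = (z : ℝ) / 2 ^ P.s - k ((u, o), j) := by
    have e2 : reC P.s (toG P (cRun l₂ (prC P (cRun l₁ X))) ((u, o), j)) =
        ((((z : ℝ) / 2 ^ P.s : ℝ)) : ℂ) +
        ((((sg P.b (cRun l₂ (prC P (cRun l₁ X)) u o true j) : ℝ) / 2 ^ P.s : ℝ)) : ℂ) *
          Complex.I := by
      rw [reC, toG, tc_mk, hz]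
      push_cast
      ring
    rw [e2]
    simp only [Complex.sub_re, Complex.add_re, Complex.ofReal_re, Complex.re_ofReal_mul,
      Complex.I_re, mul_zero, add_zero, Complex.intCast_re]
  rw [h3] at h2
  have h4 : (0 : ℝ) < 2 ^ P.s := by positivity
  have h5 : |(z : ℝ) - 2 ^ P.s * k ((u, o), j)| ≤ 2 ^ P.s / 8 := by
    have e : (z : ℝ) - 2 ^ P.s * k ((u, o), j) =
        2 ^ P.s * ((z : ℝ) / 2 ^ P.s - k ((u, o), j)) := by
      field_simp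
    rw [e, abs_mul, abs_of_pos h4]
    have := mul_le_mul_of_nonneg_left h2 h4.le
    linarith
  have h6 : (2 : ℝ) ^ P.s / 8 = 2 ^ (P.s - 3) := by
    obtain ⟨t, ht⟩ : ∃ t, P.s = t + 3 := ⟨P.s - 3, by omega⟩
    rw [ht, Nat.add_sub_cancel, pow_add]
    norm_num
  rw [h6] at h5
  exact_mod_cast h5

end Cells

end Vale.Agent.P338.R3.H328
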