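import Vale.Agent.P338.R3.H898.Act
import Vale.Agent.P338.R3.H334.FixQ

/-!
P338-D, module CELL: from real cells (`H968.Cell`, acts of `H898.Act`) to arrays of Gaussian
integers (`H334.FixGI`).

* `toG P X`: the array of Gaussian integers of an array of real cells (all words reduced to
  balanced residues modulo `2 ^ b`); it always satisfies `Bd P.b`.
* `linC` (integer linear combinations of cells), `dgC` (the act `cmul`), `prC` (the act `prod`):
  their effect on `toG` is `wrapA` of the integer maps `zStep`, `diagStep'`, `locF` of FIX.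
* `rnd_eq_roundRe`: the rounding of the release.
-/

namespace Vale.Agent.P338.R3.H328

open GaussianInt
open Vale.Agent.P338.R3.H968 (CPar Cell sg cAdd cSub cMulw cMulp rnd)
open Vale.Agent.P338.R3.H898 (cmRe cmIm cpRe cpIm cZero)
open Vale.Agent.P338.R3.H334 (wrap wrapG wrapA Bd reC reA AStep Step rndMul diagStep' locMul
  locMulK cellMul roundRe)

/-! ### Balanced residues -/

theorem sg_eq_wrap (b : ℕ) (z : ℤ) : sg b z = wrap b z := rfl

theorem sg_sg (b : ℕ) (z : ℤ) : sg b (sg b z) = sg b z := by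
  unfold sg
  exact Int.bmod_bmod

theorem sg_add (b : ℕ) (x y : ℤ) : sg b (x + y) = sg b (sg b x + sg b y) := by
  unfold sg
  rw [Int.bmod_add_bmod, Int.add_bmod_bmod]

theorem sg_sub (b : ℕ) (x y : ℤ) : sg b (x - y) = sg b (sg b x - sg b y) := by
  unfold sg
  simp

theorem sg_mul_right (b : ℕ) (a x : ℤ) : sg b (a * x) = sg b (a * sg b x) := by
  unfold sg
  simp

theorem sg_sum {ι : Type} (b : ℕ) (S : Finset ι) (f : ι → ℤ) :
    sg b (∑ i ∈ S, f i) = sg b (∑ i ∈ S, sg b (f i)) := by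
  classical
  induction S using Finset.induction_on with
  | empty => simp
  | insert a S ha ih =>
    rw [Finset.sum_insert ha, Finset.sum_insert ha, sg_add b (f a), ih,
      sg_add b (sg b (f a)) (∑ i ∈ S, sg b (f i)), sg_sg]

theorem sg_range {b : ℕ} (hb : 1 ≤ b) (z : ℤ) : -2 ^ (b - 1) ≤ sg b z ∧ sg b z < 2 ^ (b - 1) := by
  obtain ⟨c, rfl⟩ : ∃ c, b = c + 1 := ⟨b - 1, by omega⟩
  have h1 : (0 : ℤ) < 2 ^ (c + 1) := by positivity
  have h2 : 0 < 2 ^ (c + 1) := by positivity
  have h3 := Int.le_bmod (x := z) (m := 2 ^ (c + 1)) h2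
  have h4 := Int.bmod_lt (x := z) (m := 2 ^ (c + 1)) h2
  simp only [Nat.add_sub_cancel]
  unfold sg
  have h5 : (2 : ℤ) ^ (c + 1) = 2 * 2 ^ c := by ring
  have h6 : (((2 ^ (c + 1) : ℕ) : ℤ)) = 2 ^ (c + 1) := by push_cast; ring
  rw [h6] at h3 h4
  constructor <;> omega

theorem sg_eq_self {b : ℕ} (hb : 1 ≤ b) {z : ℤ} (h1 : -2 ^ (b - 1) ≤ z) (h2 : z < 2 ^ (b - 1)) :
    sg b z = z := Vale.Agent.P338.R3.H334.wrap_eq_self hb h1 h2

/-! ### Arrays of real cells -/

/-- An array of real cells: position, operand (`false` = first), `false` = real part, `true` =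
imaginary part. -/
abbrev CArr (κ : Type) : Type := κ → Bool → Bool → Cell

/-- The array of Gaussian integers of an array of real cells. -/
def toG (P : CPar) {κ : Type} (X : CArr κ) : (κ × Bool) × Fin P.nw → GaussianInt := fun j =>
  ⟨sg P.b (X j.1.1 j.1.2 false j.2), sg P.b (X j.1.1 j.1.2 true j.2)⟩

theorem bd_toG {P : CPar} (hb : 1 ≤ P.b) {κ : Type} (X : CArr κ) : Bd P.b (toG P X) := fun _ =>
  ⟨sg_range hb _, sg_range hb _⟩

theorem wrapG_mk (b : ℕ) (x y : ℤ) : wrapG b ⟨x, y⟩ = ⟨sg b x, sg b y⟩ := rfl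

theorem wrapA_toG {P : CPar} {κ : Type} (X : CArr κ) : wrapA P.b (toG P X) = toG P X := by
  funext j
  simp only [wrapA, toG, wrapG_mk, sg_sg]

/-! ### Integer linear combinations of cells -/

/-- Cell number `u` := `∑_{v ∈ S u} A u v * (cell number v)`. -/
def linC {κ : Type} (S : κ → Finset κ) (A : κ → κ → ℤ) (X : CArr κ) : CArr κ := fun u o c w =>
  ∑ v ∈ S u, A u v * X v o c w

/-- The corresponding step. -/
noncomputable def zStep {κ : Type} [Fintype κ] (m : ℕ) (S : κ → Finset κ) (A : κ → κ → ℤ)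
    (K : ℝ) : AStep ((κ × Bool) × Fin m) where
  ex x := fun j => ∑ v ∈ S j.1.1, (A j.1.1 v : ℂ) * x ((v, j.1.2), j.2)
  it X := fun j => ∑ v ∈ S j.1.1, (A j.1.1 v : GaussianInt) * X ((v, j.1.2), j.2)
  K := K

theorem ok_zStep {κ : Type} [Fintype κ] {m s : ℕ} {ε ρ : ℝ} (hε : 0 ≤ ε) (hρ : 0 ≤ ρ)
    {S : κ → Finset κ} {A : κ → κ → ℤ} {K : ℝ} (hK : 1 ≤ K)
    (hA : ∀ j, ∑ k ∈ S j, |(A j k : ℝ)| ≤ K) :
    Step.Ok (reA s) ε ρ (zStep m S A K) := by
  refine Vale.Agent.P338.R3.H334.ok_of_linear hε hρ _ hK ?_ ?_ ?_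
  · intro x y
    funext j
    simp [zStep, mul_sub, Finset.sum_sub_distrib]
  · intro x
    rw [pi_norm_le_iff_of_nonneg (mul_nonneg (by simp only [zStep]; linarith) (norm_nonneg _))]
    intro j
    simp only [zStep]
    calc ‖∑ k ∈ S j.1.1, (A j.1.1 k : ℂ) * x ((k, j.1.2), j.2)‖
        ≤ ∑ k ∈ S j.1.1, ‖(A j.1.1 k : ℂ) * x ((k, j.1.2), j.2)‖ := norm_sum_le _ _
      _ ≤ ∑ k ∈ S j.1.1, |(A j.1.1 k : ℝ)| * ‖x‖ := by
          refine Finset.sum_le_sum fun k _ => ?_
          rw [norm_mul, Complex.norm_intCast]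
          exact mul_le_mul_of_nonneg_left (norm_le_pi_norm x _) (abs_nonneg _)
      _ = (∑ k ∈ S j.1.1, |(A j.1.1 k : ℝ)|) * ‖x‖ := (Finset.sum_mul _ _ _).symm
      _ ≤ K * ‖x‖ := mul_le_mul_of_nonneg_right (hA j.1.1) (norm_nonneg _)
  · intro X
    funext j
    simp only [zStep, reA]
    rw [Vale.Agent.P338.R3.H334.reC_sum]
    refine Finset.sum_congr rfl fun k _ => ?_
    rw [Vale.Agent.P338.R3.H334.reC_intMul]

theorem gi_re_sum {ι : Type} (S : Finset ι) (f : ι → GaussianInt) :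
    (∑ i ∈ S, f i).re = ∑ i ∈ S, (f i).re := by
  classical
  induction S using Finset.induction_on with
  | empty => simp
  | insert a S ha ih => rw [Finset.sum_insert ha, Finset.sum_insert ha, Zsqrtd.re_add, ih]

theorem gi_im_sum {ι : Type} (S : Finset ι) (f : ι → GaussianInt) :
    (∑ i ∈ S, f i).im = ∑ i ∈ S, (f i).im := by
  classical
  induction S using Finset.induction_on with
  | empty => simp
  | insert a S ha ih => rw [Finset.sum_insert ha, Finset.sum_insert ha, Zsqrtd.im_add, ih]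

theorem toG_linC {κ : Type} [Fintype κ] (P : CPar) (S : κ → Finset κ) (A : κ → κ → ℤ) (K : ℝ)
    (X : CArr κ) :
    toG P (linC S A X) = wrapA P.b ((zStep P.nw S A K).it (toG P X)) := by
  funext j
  have h1 : ∀ c : Bool, sg P.b (linC S A X j.1.1 j.1.2 c j.2) =
      sg P.b (∑ v ∈ S j.1.1, A j.1.1 v * sg P.b (X v j.1.2 c j.2)) := by
    intro c
    simp only [linC]
    rw [sg_sum, sg_sum P.b (S j.1.1) fun v => A j.1.1 v * sg P.b (X v j.1.2 c j.2)]
    refine congrArg _ (Finset.sum_congr rfl fun v _ => ?_)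
    rw [sg_mul_right]
  simp only [wrapA, toG, h1]
  refine Zsqrtd.ext ?_ ?_
  · simp only [wrapG, wrap, sg, zStep, gi_re_sum]
    refine congrArg (fun t => Int.bmod t _) (Finset.sum_congr rfl fun v _ => ?_)
    simp only [Zsqrtd.re_mul, Zsqrtd.re_intCast, Zsqrtd.im_intCast, zero_mul, mul_zero, add_zero]
    rfl
  · simp only [wrapG, wrap, sg, zStep, gi_im_sum]
    refine congrArg (fun t => Int.bmod t _) (Finset.sum_congr rfl fun v _ => ?_)
    simp only [Zsqrtd.im_mul, Zsqrtd.re_intCast, Zsqrtd.im_intCast, zero_mul, add_zero]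
    rfl

/-! ### Diagonals -/

/-- Every complex cell is multiplied by a constant (the act `cmul`): `u`, `v` are the integers of
the payload words. -/
def dgC {κ : Type} (P : CPar) (u v : κ → Bool → ℤ) (X : CArr κ) : CArr κ := fun p o c =>
  if c then cmIm P (u p o) (v p o) (X p o false) (X p o true)
  else cmRe P (u p o) (v p o) (X p o false) (X p o true)

/-- The Gaussian integers of the constants. -/
def dgG {κ : Type} (P : CPar) (u v : κ → Bool → ℤ) : (κ × Bool) × Fin P.nw → GaussianInt :=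
  fun j => ⟨sg P.b (u j.1.1 j.1.2), sg P.b (v j.1.1 j.1.2)⟩

theorem toG_dgC {κ : Type} [Fintype κ] (P : CPar) (u v : κ → Bool → ℤ)
    (c : (κ × Bool) × Fin P.nw → ℂ) (K : ℝ) (X : CArr κ) :
    toG P (dgC P u v X) = wrapA P.b ((diagStep' P.s (dgG P u v) c K).it (toG P X)) := rfl

/-! ### The local product -/

/-- The act `prod` on every position: the operand `false` becomes the product, the operand `true`
becomes zero. -/
def prC {κ : Type} (P : CPar) (X : CArr κ) : CArr κ := fun p o c =>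
  if o then cZero
  else if c then cpIm P (X p false false) (X p false true) (X p true false) (X p true true)
  else cpRe P (X p false false) (X p false true) (X p true false) (X p true true)

/-- Product of polynomials with integer coefficients. -/
def mulI {m : ℕ} (x y : Fin m → ℤ) : Fin m → ℤ := cellMul m x y

/-- The integer map of the act `prod`. -/
def locF (κ : Type) (m s : ℕ) (X : (κ × Bool) × Fin m → GaussianInt) :
    (κ × Bool) × Fin m → GaussianInt := fun j =>
  if j.1.2 then 0 else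
    ⟨mulI (fun a => (X ((j.1.1, false), a)).re) (fun a => (X ((j.1.1, true), a)).re) j.2 / 2 ^ s -
      mulI (fun a => (X ((j.1.1, false), a)).im) (fun a => (X ((j.1.1, true), a)).im) j.2 / 2 ^ s,
     mulI (fun a => (X ((j.1.1, false), a)).re) (fun a => (X ((j.1.1, true), a)).im) j.2 / 2 ^ s +
      mulI (fun a => (X ((j.1.1, false), a)).im) (fun a => (X ((j.1.1, true), a)).re) j.2 / 2 ^ s⟩

theorem mulI_sum {m : ℕ} (x y : ℕ → ℤ) (j : Fin m) :
    mulI (m := m) (fun a => x a) (fun a => y a) j =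
      ∑ i ∈ Finset.range ((j : ℕ) + 1), x i * y (j - i) := by
  unfold mulI
  rw [Vale.Agent.P338.R3.H334.cellMul_eq]
  have h1 : ∑ a : Fin m, (if h : (a : ℕ) ≤ j then
      (fun b : Fin m => x b) a * (fun b : Fin m => y b) ⟨(j : ℕ) - a, by omega⟩ else 0) =
      ∑ a : Fin m, (if (a : ℕ) ≤ j then x a * y (j - a) else 0) := by
    refine Finset.sum_congr rfl fun a _ => ?_
    by_cases h : (a : ℕ) ≤ j
    · rw [dif_pos h, if_pos h]
    · rw [dif_neg h, if_neg h]
  rw [h1, Fin.sum_univ_eq_sum_range (fun a => if a ≤ (j : ℕ) then x a * y (j - a) else 0) m,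
    ← Finset.sum_filter]
  refine Finset.sum_congr ?_ fun _ _ => rfl
  ext a
  simp only [Finset.mem_filter, Finset.mem_range]
  have := j.2
  omega

theorem toG_prC {κ : Type} [Fintype κ] (P : CPar) (X : CArr κ) :
    toG P (prC P X) = wrapA P.b (locF κ P.nw P.s (toG P X)) := by
  funext j
  obtain ⟨⟨p, o⟩, w⟩ := j
  cases o with
  | true =>
    simp only [toG, prC, wrapA, locF, if_true, cZero]
    refine Zsqrtd.ext ?_ ?_ <;> simp [wrapG, wrap, sg]
  | false =>
    have key : ∀ x y : Cell, mulI (m := P.nw) (fun a => sg P.b (x a)) (fun a => sg P.b (y a)) w =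
        ∑ i ∈ Finset.range ((w : ℕ) + 1), sg P.b (x i) * sg P.b (y (w - i)) := fun x y =>
      mulI_sum (fun i => sg P.b (x i)) (fun i => sg P.b (y i)) w
    simp only [toG, prC, wrapA, locF, Bool.false_eq_true, if_false, if_true, wrapG_mk, key]
    rfl

theorem tc_mk (x y : ℤ) : toComplex (⟨x, y⟩ : GaussianInt) = (x : ℂ) + (y : ℂ) * Complex.I :=
  GaussianInt.toComplex_def' x y

theorem locMulK_locF (κ : Type) (m s : ℕ) : locMulK κ m s 4 (locF κ m s) := by
  intro X j
  obtain ⟨⟨p, o⟩, w⟩ := j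
  cases o with
  | true => simp [locF, locMul]
  | false =>
    set a : ℤ := mulI (fun a => (X ((p, false), a)).re) (fun a => (X ((p, true), a)).re) w with ha
    set b : ℤ := mulI (fun a => (X ((p, false), a)).im) (fun a => (X ((p, true), a)).im) w with hb
    set c : ℤ := mulI (fun a => (X ((p, false), a)).re) (fun a => (X ((p, true), a)).im) w with hc
    set d : ℤ := mulI (fun a => (X ((p, false), a)).im) (fun a => (X ((p, true), a)).re) w with hd
    have e1 : locF κ m s X ((p, false), w) = ⟨a / 2 ^ s - b / 2 ^ s, c / 2 ^ s + d / 2 ^ s⟩ := by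
      simp only [locF, Bool.false_eq_true, if_false]
      rfl
    have e2 : locMul κ m X ((p, false), w) = ⟨a - b, c + d⟩ := by
      simp only [locMul, Bool.false_eq_true, if_false, cellMul]
      refine Zsqrtd.ext ?_ ?_
      · rw [gi_re_sum, ha, hb]
        simp only [mulI, cellMul]
        rw [← Finset.sum_sub_distrib]
        refine Finset.sum_congr rfl fun i _ => ?_
        rw [gi_re_sum, ← Finset.sum_sub_distrib]
        refine Finset.sum_congr rfl fun k _ => ?_
        split_ifs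
        · rw [Zsqrtd.re_mul]
          ring
        · simp
      · rw [gi_im_sum, hc, hd]
        simp only [mulI, cellMul]
        rw [← Finset.sum_add_distrib]
        refine Finset.sum_congr rfl fun i _ => ?_
        rw [gi_im_sum, ← Finset.sum_add_distrib]
        refine Finset.sum_congr rfl fun k _ => ?_
        split_ifs
        · rw [Zsqrtd.im_mul]
        · simp
    rw [e1, e2]
    have ga := Vale.Agent.P338.R3.H334.abs_floor_le s a
    have gb := Vale.Agent.P338.R3.H334.abs_floor_le s b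
    have gc := Vale.Agent.P338.R3.H334.abs_floor_le s c
    have gd := Vale.Agent.P338.R3.H334.abs_floor_le s d
    have e3 : toComplex (⟨a / 2 ^ s - b / 2 ^ s, c / 2 ^ s + d / 2 ^ s⟩ : GaussianInt) -
        toComplex (⟨a - b, c + d⟩ : GaussianInt) / 2 ^ s =
        ((((((a / 2 ^ s : ℤ) : ℝ) - (a : ℝ) / 2 ^ s) -
          (((b / 2 ^ s : ℤ) : ℝ) - (b : ℝ) / 2 ^ s) : ℝ)) : ℂ) +
        ((((((c / 2 ^ s : ℤ) : ℝ) - (c : ℝ) / 2 ^ s) +
          (((d / 2 ^ s : ℤ) : ℝ) - (d : ℝ) / 2 ^ s) : ℝ)) : ℂ) * Complex.I := by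
      rw [tc_mk, tc_mk]
      push_cast
      ring
    rw [e3]
    refine (norm_add_le _ _).trans ?_
    rw [norm_mul, Complex.norm_I, mul_one, Complex.norm_real, Complex.norm_real, Real.norm_eq_abs,
      Real.norm_eq_abs]
    have k1 := abs_sub (((a / 2 ^ s : ℤ) : ℝ) - (a : ℝ) / 2 ^ s)
      (((b / 2 ^ s : ℤ) : ℝ) - (b : ℝ) / 2 ^ s)
    have k2 := abs_add_le (((c / 2 ^ s : ℤ) : ℝ) - (c : ℝ) / 2 ^ s)
      (((d / 2 ^ s : ℤ) : ℝ) - (d : ℝ) / 2 ^ s)
    linarith

/-! ### The rounding of the release -/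

theorem rnd_eq_roundRe {P : CPar} (hs : 1 ≤ P.s) (z : ℤ) (y : ℤ) :
    rnd P z = roundRe P.s ⟨sg P.b z, y⟩ := by
  unfold rnd roundRe
  obtain ⟨t, ht⟩ : ∃ t, P.s = t + 1 := ⟨P.s - 1, by omega⟩
  rw [ht, Nat.add_sub_cancel]
  have h1 : (2 * sg P.b z + 2 ^ (t + 1) : ℤ) = (sg P.b z + 2 ^ t) * 2 := by ring
  have h2 : (2 : ℤ) ^ (t + 1 + 1) = 2 ^ (t + 1) * 2 := by ring
  simp only
  rw [h1, h2, Int.mul_ediv_mul_of_pos_left _ _ (by norm_num)]

end Vale.Agent.P338.R3.H328
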