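import Vale.Agent.P338.R3.H328.CellG

/-!
P338-D, module CELL: runs on arrays of real cells, and the final theorem of FIX on real cells.

* `CStep P κ`: a map on arrays of real cells with its exact complex meaning; `CStep.lin` (integer
  linear combinations: zeta sweeps, in any act-level form), `CStep.dg` (the act `cmul`).
* `cells_exact`: forward steps, local product, inverse steps; if the exact complex run gives
  integers `k`, then the rounded words (`H968.rnd`) of the resulting cells are `k`.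
* `reA_toG_load`: the meaning of a loaded array.
-/

namespace Vale.Agent.P338.R3.H328

open GaussianInt
open Vale.Agent.P338.R3.H968 (CPar Cell sg cLoad rnd)
open Vale.Agent.P338.R3.H334 (wrap wrapG wrapA Bd reC reA AStep Step diagStep' locMul locMulK
  roundRe exRun itRun prodK mtRun)

variable {κ : Type} [Fintype κ]

/-- A step of the machine on cells, with its exact meaning. -/
structure CStep (P : CPar) (κ : Type) [Fintype κ] where
  /-- the map on cells -/
  cm : CArr κ → CArr κ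
  /-- the step of FIX -/
  st : AStep ((κ × Bool) × Fin P.nw)
  hcm : ∀ X, toG P (cm X) = wrapA P.b (st.it (toG P X))

/-- Integer linear combinations of cells. -/
noncomputable def CStep.lin (P : CPar) (S : κ → Finset κ) (A : κ → κ → ℤ) (K : ℝ) :
    CStep P κ where
  cm := linC S A
  st := zStep P.nw S A K
  hcm := toG_linC P S A K

/-- A diagonal. -/
noncomputable def CStep.dg (P : CPar) (u v : κ → Bool → ℤ) (c : (κ × Bool) × Fin P.nw → ℂ)
    (K : ℝ) : CStep P κ where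
  cm := dgC P u v
  st := diagStep' P.s (dgG P u v) c K
  hcm := toG_dgC P u v c K

/-- The run on cells. -/
def cRun {P : CPar} (l : List (CStep P κ)) (X : CArr κ) : CArr κ := l.foldl (fun X a => a.cm X) X

/-- The maps of FIX: every step modulo `2 ^ b`. -/
noncomputable def mtW (P : CPar) (st : AStep ((κ × Bool) × Fin P.nw))
    (X : (κ × Bool) × Fin P.nw → GaussianInt) : (κ × Bool) × Fin P.nw → GaussianInt :=
  wrapA P.b (st.it X)

theorem toG_cRun {P : CPar} (l : List (CStep P κ)) (X : CArr κ) :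
    toG P (cRun l X) = mtRun (mtW P) (l.map CStep.st) (toG P X) := by
  induction l using List.reverseRecOn with
  | nil => rfl
  | append_singleton l a ih =>
    have e1 : cRun (l ++ [a]) X = a.cm (cRun l X) := by simp [cRun]
    have e2 : mtRun (mtW P) ((l ++ [a]).map CStep.st) (toG P X) =
        mtW P a.st (mtRun (mtW P) (l.map CStep.st) (toG P X)) := by
      simp [mtRun]
    rw [e1, a.hcm, e2, ← ih]
    rfl

/-- **FIX on real cells.** `l₁` = forward steps, then the acts `prod`, then the inverse steps `l₂`.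
If the exact complex run gives integers `k`, the rounded real words of the cells are `k`. -/
theorem cells_exact {P : CPar} {c ν Λ w g : ℕ} {ε ρ : ℝ} (hε : 0 ≤ ε)
    (hε' : ε ≤ 2 ^ c / 2 ^ P.s) (hρ' : ρ ≤ 2 ^ c / 2 ^ P.s) (hκρ : 4 / 2 ^ P.s ≤ ρ)
    {l₁ l₂ : List (CStep P κ)}
    (h₁ : ∀ a ∈ l₁, Step.Ok (reA P.s) ε ρ a.st) (h₂ : ∀ a ∈ l₂, Step.Ok (reA P.s) ε ρ a.st)
    (hK₁ : prodK (l₁.map CStep.st) ≤ 2 ^ Λ) (hK₂ : prodK (l₂.map CStep.st) ≤ 2 ^ Λ)
    (hm : (P.nw : ℝ) ≤ 2 ^ g)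
    (hn₁ : (l₁.length : ℝ) ≤ 2 ^ ν) (hn₂ : (l₂.length : ℝ) ≤ 2 ^ ν)
    (hs : 3 * Λ + 2 * w + g + ν + c + 7 ≤ P.s) (hb : P.s + 3 * Λ + 2 * w + g + 10 ≤ P.b)
    {X : CArr κ} (hX : ‖reA P.s (toG P X)‖ ≤ 2 ^ w) {k : (κ × Bool) × Fin P.nw → ℤ}
    (hk : exRun (l₂.map CStep.st) (locMul κ P.nw (exRun (l₁.map CStep.st) (reA P.s (toG P X)))) =
      fun j => (k j : ℂ)) (u : κ) (o : Bool) (j : Fin P.nw) :
    rnd P (cRun l₂ (prC P (cRun l₁ X)) u o false j) = k ((u, o), j) := by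
  have hρ : 0 ≤ ρ := le_trans (by positivity) hκρ
  have h := Vale.Agent.P338.R3.H334.whole_exact_loc (κ := κ) (m := P.nw) (s := P.s) (b := P.b)
    (κ' := 4) hε hρ (by norm_num) hε' hρ' hκρ
    (l₁ := l₁.map CStep.st) (l₂ := l₂.map CStep.st)
    (fun st hst => by
      obtain ⟨a, ha, rfl⟩ := List.mem_map.1 hst
      exact h₁ a ha)
    (fun st hst => by
      obtain ⟨a, ha, rfl⟩ := List.mem_map.1 hst
      exact h₂ a ha) hK₁ hK₂ hm (by simpa using hn₁) (by simpa using hn₂) hs hb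
    (mt := mtW P) (fun _ _ _ _ => rfl) (locMulK_locF κ P.nw P.s)
    (mq := fun X => wrapA P.b (locF κ P.nw P.s X)) (fun _ _ => rfl) hX hk
  have h2 := congrFun h ((u, o), j)
  rw [← h2, ← toG_cRun, ← toG_prC, ← toG_cRun]
  exact rnd_eq_roundRe (by omega) _ _

/-! ### Loaded arrays -/

omit [Fintype κ] in
/-- The meaning of an array of digits at scale `2 ^ s`. -/
theorem reA_toG_load {P : CPar} {w : ℕ} (hb : w + P.s + 1 ≤ P.b) {X : CArr κ}
    {d : κ → Bool → ℕ → ℕ} (hd : ∀ u o j, d u o j < 2 ^ w)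
    (hX : ∀ u o j, X u o false j = (d u o j : ℤ) * 2 ^ P.s) (hX' : ∀ u o j, X u o true j = 0) :
    reA P.s (toG P X) = fun j => ((d j.1.1 j.1.2 j.2 : ℕ) : ℂ) := by
  funext j
  have h1 : sg P.b (X j.1.1 j.1.2 false j.2) = (d j.1.1 j.1.2 j.2 : ℤ) * 2 ^ P.s := by
    rw [hX]
    refine sg_eq_self (by omega) ?_ ?_
    · have : (0 : ℤ) ≤ (d j.1.1 j.1.2 j.2 : ℤ) * 2 ^ P.s := by positivity
      have : (0 : ℤ) ≤ 2 ^ (P.b - 1) := by positivity
      linarith
    · have h3 : (d j.1.1 j.1.2 j.2 : ℤ) < 2 ^ w := by exact_mod_cast hd _ _ _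
      have h4 : (0 : ℤ) < 2 ^ P.s := by positivity
      calc (d j.1.1 j.1.2 j.2 : ℤ) * 2 ^ P.s < 2 ^ w * 2 ^ P.s :=
            mul_lt_mul_of_pos_right h3 h4
        _ = 2 ^ (w + P.s) := by rw [pow_add]
        _ ≤ 2 ^ (P.b - 1) := pow_le_pow_right₀ (by norm_num) (by omega)
  have h2 : sg P.b (X j.1.1 j.1.2 true j.2) = 0 := by
    rw [hX']
    simp [sg]
  simp only [reA, reC, toG, h1, h2, tc_mk]
  push_cast
  have h3 : (2 : ℂ) ^ P.s ≠ 0 := pow_ne_zero _ two_ne_zero
  field_simp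
  simp

theorem norm_load_le {P : CPar} {w : ℕ} (hb : w + P.s + 1 ≤ P.b) {X : CArr κ}
    {d : κ → Bool → ℕ → ℕ} (hd : ∀ u o j, d u o j < 2 ^ w)
    (hX : ∀ u o j, X u o false j = (d u o j : ℤ) * 2 ^ P.s) (hX' : ∀ u o j, X u o true j = 0) :
    ‖reA P.s (toG P X)‖ ≤ 2 ^ w := by
  rw [reA_toG_load hb hd hX hX', pi_norm_le_iff_of_nonneg (by positivity)]
  intro j
  rw [Complex.norm_natCast]
  exact_mod_cast (hd _ _ _).le

/-- The digits of the load act. -/
theorem cLoad_eq (P : CPar) (v j : ℕ) :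
    cLoad P v j = ((if j < P.Y then v / 2 ^ (P.w * j) % 2 ^ P.w else 0 : ℕ) : ℤ) * 2 ^ P.s := by
  unfold cLoad
  split_ifs <;> simp

end Vale.Agent.P338.R3.H328
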