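import Vale.Agent.P338.R3.H282.Step
import Vale.Agent.P338.R3.H50.IO

/-!
P338-D, JOINT: functional correctness of load + exact schedule + fixed point + unload.

* `bpoly w Y x v`: the polynomial of the block `v` of `x`; `coeff_cyc`: the coefficients of the cyclic
  product of the block polynomials are the words `H50.prodW`.
* `pol`: the array of polynomials on positions `u` (`0` at invalid positions), `ld0`: the array of
  real cells after the load pass; `ld0_eq`: its words.
* `joint`: if the exact result is the cyclic product (module ASM) and the machine is within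
  `2 ^ (s - 3)` of it (module FIX), the released bits are `x * y`.
-/

namespace Vale.Agent.P338.R3.H328

open Finset Polynomial
open Vale.Agent.P338.R3.H968 (CPar Cell sg cLoad)
open Vale.Agent.P338.R3.H772 (lval)
open Vale.Agent.P338.R3.H50 (blk prodW emits ovl)
open Vale.Agent.P338.R3.H282 (Geo)

/-! ### Polynomials of blocks -/

/-- The polynomial of the block `v` of the number `x`. -/
noncomputable def bpoly (w Y x v : ℕ) : ℂ[X] :=
  ∑ j ∈ range Y, C ((blk w Y x v j : ℕ) : ℂ) * X ^ j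

theorem coeff_bpoly (w Y x v j : ℕ) : (bpoly w Y x v).coeff j = ((blk w Y x v j : ℕ) : ℂ) := by
  unfold bpoly
  rw [finsetSum_coeff]
  simp only [coeff_C_mul, coeff_X_pow, mul_ite, mul_one, mul_zero]
  rw [Finset.sum_ite_eq (range Y) j fun i => ((blk w Y x v i : ℕ) : ℂ)]
  split_ifs with h
  · rfl
  · rw [Vale.Agent.P338.R3.H50.blk_of_ge (by simpa using h), Nat.cast_zero]

theorem bpoly_of_lt {w Y x v M : ℕ} (hx : x < 2 ^ (w * Y * M)) (h : M ≤ v) :
    bpoly w Y x v = 0 := by
  unfold bpoly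
  refine Finset.sum_eq_zero fun j _ => ?_
  rw [Vale.Agent.P338.R3.H50.blk_of_lt hx h, Nat.cast_zero, C_0, zero_mul]

theorem coeff_conv (w Y x y u j : ℕ) :
    (∑ v ∈ range (u + 1), bpoly w Y x v * bpoly w Y y (u - v)).coeff j =
      ((prodW w Y x y u j : ℕ) : ℂ) := by
  rw [finsetSum_coeff, prodW]
  push_cast
  refine Finset.sum_congr rfl fun v _ => ?_
  rw [coeff_mul, Finset.Nat.sum_antidiagonal_eq_sum_range_succ_mk]
  refine Finset.sum_congr rfl fun i _ => ?_
  rw [coeff_bpoly, coeff_bpoly]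

theorem coeff_cyc (w Y x y j : ℕ) {M M1 M2 : ℕ} (hM : M1 + M2 ≤ M + 1)
    (hx : x < 2 ^ (w * Y * M1)) (hy : y < 2 ^ (w * Y * M2)) {u : ℕ} (hu : u < M) :
    (∑ v ∈ range M, bpoly w Y x v * bpoly w Y y ((u + M - v) % M)).coeff j =
      ((prodW w Y x y u j : ℕ) : ℂ) := by
  rw [Vale.Agent.P338.R3.H50.cyc_eq hM (bpoly w Y x) (bpoly w Y y)
    (fun v hv => bpoly_of_lt hx hv) (fun v hv => bpoly_of_lt hy hv) hu]
  exact coeff_conv w Y x y u j

/-! ### Loaded arrays -/

/-- The array of the block polynomials of `x`. -/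
noncomputable def pol (G : Geo) (w Y x u : ℕ) : ℂ[X] :=
  if G.valid u then bpoly w Y x (G.idx u) else 0

/-- The positions that receive a block of the operands: valid, top selector bit `0`. -/
def sel (G : Geo) (u : ℕ) : Bool := G.valid u && !(u.testBit (G.a * G.d + G.s - 1))

/-- The array of real cells after the load pass (position, operand, imaginary part). -/
def ld0 (G : Geo) (P : CPar) (x y : ℕ) (u : ℕ) (o im : Bool) : Cell :=
  if im then fun _ => 0
  else if sel G u then
    cLoad P ((if o then y else x) / 2 ^ (P.w * P.Y * G.idx u) % 2 ^ (P.w * P.Y))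
  else fun _ => 0

theorem ld0_im (G : Geo) (P : CPar) (x y u : ℕ) (o : Bool) : ld0 G P x y u o true = fun _ => 0 := by
  simp [ld0]

/-- A valid position with top selector bit `1` belongs to the upper half of the indices. -/
theorem half_le_idx {G : Geo} (hs : 1 ≤ G.s) {u : ℕ}
    (h : u.testBit (G.a * G.d + G.s - 1) = true) : 2 ^ (G.s - 1) * G.N ≤ G.idx u := by
  have h1 : 2 ^ (G.a * G.d + G.s - 1) ≤ u := Nat.ge_two_pow_of_testBit h
  have h2 : 2 ^ (G.s - 1) ≤ G.sv u := by
    unfold Geo.sv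
    rw [Nat.le_div_iff_mul_le (by positivity), ← pow_add]
    refine le_trans (Nat.pow_le_pow_right (by norm_num) ?_) h1
    omega
  unfold Geo.idx
  exact le_trans (Nat.mul_le_mul_right _ h2) (Nat.le_add_right _ _)

theorem idx_lt_half {G : Geo} (hs : 1 ≤ G.s) {u : ℕ}
    (hu : u < 2 ^ (G.a * G.d + G.s)) (hv : G.valid u = true)
    (h : u.testBit (G.a * G.d + G.s - 1) = false) : G.idx u < 2 ^ (G.s - 1) * G.N := by
  have h1 : G.sv u < 2 ^ (G.s - 1) := by
    unfold Geo.sv
    rw [Nat.div_lt_iff_lt_mul (by positivity), ← pow_add]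
    have h2 : u < 2 ^ (G.a * G.d + G.s - 1) := by
      refine Nat.lt_pow_two_of_testBit u fun i hi => ?_
      rcases Nat.eq_or_lt_of_le hi with h3 | h3
      · rw [← h3]
        exact h
      · exact Nat.testBit_lt_two_pow (lt_of_lt_of_le hu (Nat.pow_le_pow_right (by norm_num)
          (by omega)))
    refine lt_of_lt_of_le h2 (Nat.pow_le_pow_right (by norm_num) (by omega))
  have h3 : G.dj u < G.N := by
    unfold Geo.dj Geo.N
    refine Vale.Agent.P338.R3.H955.mv_lt fun k _ hk => ?_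
    unfold Geo.valid at hv
    rw [List.all_eq_true] at hv
    have := hv k (by simpa using hk)
    simpa using this
  unfold Geo.idx
  calc G.sv u * G.N + G.dj u < G.sv u * G.N + G.N := by omega
    _ = (G.sv u + 1) * G.N := by ring
    _ ≤ 2 ^ (G.s - 1) * G.N := Nat.mul_le_mul_right _ h1

/-- The words of the loaded array. -/
theorem ld0_eq {G : Geo} {P : CPar} (hs : 1 ≤ G.s) {x y : ℕ}
    (hx : x < 2 ^ (P.w * P.Y * (2 ^ (G.s - 1) * G.N)))
    (hy : y < 2 ^ (P.w * P.Y * (2 ^ (G.s - 1) * G.N))) {u : ℕ}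
    (hu : u < 2 ^ (G.a * G.d + G.s)) (o : Bool) (j : ℕ) :
    ld0 G P x y u o false j =
      ((if G.valid u then blk P.w P.Y (if o then y else x) (G.idx u) j else 0 : ℕ) : ℤ) *
        2 ^ P.s := by
  have hz : (if o then y else x) < 2 ^ (P.w * P.Y * (2 ^ (G.s - 1) * G.N)) := by
    cases o
    · simpa using hx
    · simpa using hy
  unfold ld0 sel
  rw [if_neg (by simp)]
  by_cases hv : G.valid u = true
  · by_cases ht : u.testBit (G.a * G.d + G.s - 1) = true
    · rw [hv, ht, if_neg (by simp), if_pos rfl,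
        Vale.Agent.P338.R3.H50.blk_of_lt hz (half_le_idx hs ht)]
      simp
    · rw [Bool.not_eq_true] at ht
      rw [hv, ht, if_pos (by simp), if_pos rfl, Vale.Agent.P338.R3.H50.cLoad_blk]
  · rw [Bool.not_eq_true] at hv
    rw [hv]
    simp

/-- The coefficients of the polynomials are the words of the loaded array. -/
theorem coeff_pol (G : Geo) (w Y x u j : ℕ) : (pol G w Y x u).coeff j =
    ((if G.valid u then blk w Y x (G.idx u) j else 0 : ℕ) : ℂ) := by
  unfold pol
  split_ifs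
  · exact coeff_bpoly _ _ _ _ _
  · simp

/-! ### The joint statement -/

/-- **JOINT.** `ex` = exact result on the positions (a polynomial for every position), `F u` = the
real cell of the first operand at the position `u` at the end, `D v` = the cells in the order of
the unload pass. -/
theorem joint {P : CPar} (hP : P.Ok) (hs3 : 4 ≤ P.s) {G : Geo} (hs : 1 ≤ G.s) {x y : ℕ}
    (hx : x < 2 ^ (P.w * P.Y * (2 ^ (G.s - 1) * G.N)))
    (hy : y < 2 ^ (P.w * P.Y * (2 ^ (G.s - 1) * G.N)))
    (hbig : (2 * (2 ^ G.s * G.N * P.Y * 2 ^ (2 * P.w)) + 1) * 2 ^ (P.s + 2) ≤ 2 ^ P.b)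
    (hidx : ∀ v < 2 ^ G.s * G.N, ∃ u < 2 ^ (G.a * G.d + G.s), G.valid u = true ∧ G.idx u = v)
    (hlt : ∀ u < 2 ^ (G.a * G.d + G.s), G.valid u = true → G.idx u < 2 ^ G.s * G.N)
    {ex : ℕ → ℂ[X]}
    (hex : ∀ u < 2 ^ (G.a * G.d + G.s), ex u = if G.valid u then
      ∑ v ∈ range (2 ^ G.s * G.N), bpoly P.w P.Y x v *
        bpoly P.w P.Y y ((G.idx u + 2 ^ G.s * G.N - v) % (2 ^ G.s * G.N)) else 0)
    {F : ℕ → Cell}
    (hF : ∀ k : ℕ → ℕ → ℤ, (∀ u < 2 ^ (G.a * G.d + G.s), ∀ j < P.nw,
        (ex u).coeff j = ((k u j : ℤ) : ℂ)) →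
      ∀ u < 2 ^ (G.a * G.d + G.s), ∀ j < P.nw, |sg P.b (F u j) - 2 ^ P.s * k u j| ≤ 2 ^ (P.s - 3))
    {D : ℕ → Cell} (hD : ∀ u < 2 ^ (G.a * G.d + G.s), G.valid u = true → D (G.idx u) = F u) :
    (emits P ((List.range (2 ^ G.s * G.N)).map (ovl P D)) 0).1.length =
        P.w * P.Y * (2 ^ G.s * G.N) ∧
      lval (emits P ((List.range (2 ^ G.s * G.N)).map (ovl P D)) 0).1 = x * y := by
  set M := 2 ^ G.s * G.N with hMdef
  set M1 := 2 ^ (G.s - 1) * G.N with hM1def
  have hM : M1 + M1 = M := by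
    obtain ⟨t, ht⟩ : ∃ t, G.s = t + 1 := ⟨G.s - 1, by omega⟩
    rw [hM1def, hMdef, ht, Nat.add_sub_cancel, pow_succ]
    ring
  have hF' := hF (fun u j => ((if G.valid u then prodW P.w P.Y x y (G.idx u) j else 0 : ℕ) : ℤ))
    (fun u hu j _ => by
      rw [hex u hu]
      split_ifs with hv
      · rw [coeff_cyc P.w P.Y x y j (by omega) hx hy (hlt u hu hv)]
        push_cast
        rfl
      · simp)
  refine Vale.Agent.P338.R3.H50.unload_eq P hP M M1 M1 x y hM.le hx hy hbig D (2 ^ (P.s - 3)) ?_ ?_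
  · obtain ⟨t, ht⟩ : ∃ t, P.s = t + 4 := ⟨P.s - 4, by omega⟩
    rw [ht, show t + 4 - 3 = t + 1 by omega, show t + 4 - 1 = t + 3 by omega, pow_succ, pow_add]
    have : (0 : ℤ) < 2 ^ t := by positivity
    norm_num
    linarith
  · intro v hv j hj
    obtain ⟨u, hu, hval, rfl⟩ := hidx v hv
    rw [hD u hu hval]
    have := hF' u hu j (by simpa [CPar.nw] using hj)
    rw [if_pos hval] at this
    exact this

end Vale.Agent.P338.R3.H328
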