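import Vale.Agent.P338.R3.H257.Chain
import Vale.Agent.P338.R3.H334.GlueSt
import Vale.Agent.P338.R3.H288.Pos
import Vale.Agent.P338.R3.H413.IdxGeo
import Vale.Agent.P338.R3.H328.Joint

/-!
P338-D, NUM: the numerical statement `H257.Num` from the error analysis (`H334.glue_fix`), the exact
theorem on the schedule (hypothesis `Main`, module ASM) and the block polynomials.
-/

namespace Vale.Agent.P338.R3.H328

open Finset Polynomial
open Vale.Agent.P338.R3.H968 (CPar Cell sg cLoad)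
open Vale.Agent.P338.R3.H898 (cZero)
open Vale.Agent.P338.R3.H772 (lval)
open Vale.Agent.P338.R3.H50 (blk prodW emits ovl)
open Vale.Agent.P338.R3.H282 (Geo Ly DC St exs)
open Vale.Agent.P338.R3.H334 (mzSt mzs prZ CApp lgSt nSt StBits glue_fix)
open Vale.Agent.P338.R3.H257 (MArr runS ldArr nP nM Num)
open Vale.Agent.P338.R3.H121
open Vale.Agent.P338.R3.H501.Rad

variable {δ : Type}

/-- The exact theorem on the schedule, for the block polynomials. -/
def ExMain (G : Geo) (lv : ℕ → δ → ℕ → ℂ) (prog : List (Ly δ)) (w Y : ℕ) : Prop :=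
  ∀ x y : ℕ, x < 2 ^ (w * Y * (2 ^ (G.s - 1) * G.N)) → y < 2 ^ (w * Y * (2 ^ (G.s - 1) * G.N)) →
    ∀ u < 2 ^ (G.a * G.d + G.s),
      exs G lv (G.bwd prog) (fun u => exs G lv (G.fwd prog) (pol G w Y x) u *
        exs G lv (G.fwd prog) (pol G w Y y) u) u =
      if G.valid u then
        ∑ v ∈ range (2 ^ G.s * G.N), bpoly w Y x v *
          bpoly w Y y ((G.idx u + 2 ^ G.s * G.N - v) % (2 ^ G.s * G.N)) else 0

/-- The words of the loaded array. -/
theorem ldArr_eq {G : Geo} {P : CPar} {m : ℕ} {x y : ℕ}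
    (hx : x < 2 ^ (P.w * P.Y * m)) (hy : y < 2 ^ (P.w * P.Y * m)) (u : ℕ) (o : Bool) (j : ℕ) :
    ldArr P G m x y u o false j =
      ((if G.valid u then blk P.w P.Y (if o then y else x) (G.idx u) j else 0 : ℕ) : ℤ) *
        2 ^ P.s := by
  have hz : (if o then y else x) < 2 ^ (P.w * P.Y * m) := by
    cases o
    · simpa using hx
    · simpa using hy
  unfold ldArr
  rw [if_neg (by simp)]
  by_cases hv : G.valid u = true
  · by_cases ht : G.idx u < m
    · rw [hv, if_pos (by simpa using ht), if_pos rfl, Vale.Agent.P338.R3.H50.cLoad_blk]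
    · rw [hv, if_neg (by simpa using ht), if_pos rfl,
        Vale.Agent.P338.R3.H50.blk_of_lt hz (not_lt.1 ht)]
      simp [cZero]
  · rw [Bool.not_eq_true] at hv
    rw [hv]
    simp [cZero]

theorem stBits_of_okS {K : ℕ} {st : St δ} (h : Vale.Agent.P338.R3.H288.okS K st) :
    StBits K st := by
  cases st with
  | dn J => exact h
  | up J => exact h
  | dg c => trivial

/-- **NUM**, abstract parameters. -/
theorem num_gen {P : CPar} {G : Geo} (hs1 : 1 ≤ G.s) (hds : G.d ≤ G.s)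
    {lv : ℕ → δ → ℕ → ℂ} {prog : List (Ly δ)} {C : DC δ → ℕ → ℤ × ℤ} {lg : DC δ → ℕ} {Λ g ν : ℕ}
    (hC : ∀ c, St.dg c ∈ G.fwd prog ++ G.bwd prog →
      CApp G lv C lg (G.a * G.d + G.s) P.b P.s c)
    (hΛ₁ : ((G.fwd prog).map (lgSt lg)).sum ≤ Λ) (hΛ₂ : ((G.bwd prog).map (lgSt lg)).sum ≤ Λ)
    (hn₁ : ((G.fwd prog).map nSt).sum ≤ 2 ^ ν) (hn₂ : ((G.bwd prog).map nSt).sum ≤ 2 ^ ν)
    (hg : 2 * P.Y ≤ 2 ^ g) (hs : 3 * Λ + 2 * P.w + g + ν + 9 ≤ P.s)
    (hb : P.s + 3 * Λ + 2 * P.w + g + 10 ≤ P.b)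
    (hlt : ∀ u < 2 ^ (G.a * G.d + G.s), G.valid u = true → G.idx u < 2 ^ G.s * G.N)
    (hmain : ExMain G lv prog P.w P.Y) :
    Num P G (2 ^ (G.s - 1) * G.N) (mzSt P.b P.s C) (fun F u => prZ P.b P.s (F u))
      (G.fwd prog) (G.bwd prog) := by
  intro x y hx hy u hu hval j hj
  have hM : 2 ^ (G.s - 1) * G.N + 2 ^ (G.s - 1) * G.N = 2 ^ G.s * G.N := by
    obtain ⟨t, ht⟩ : ∃ t, G.s = t + 1 := ⟨G.s - 1, by omega⟩
    rw [ht, Nat.add_sub_cancel, pow_succ]
    ring
  have key := glue_fix G lv (K := G.a * G.d + G.s) (n := 2 * P.Y) (b := P.b) (s := P.s) C lg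
    (l₁ := G.fwd prog) (l₂ := G.bwd prog) (Λ := Λ) (w := P.w) (g := g) (ν := ν)
    (fun st hst => by
      rcases List.mem_append.1 hst with h | h
      · exact stBits_of_okS (Vale.Agent.P338.R3.H288.okS_fwd hds prog st h)
      · exact stBits_of_okS (Vale.Agent.P338.R3.H288.okS_bwd hds prog st h))
    hC hΛ₁ hΛ₂ hn₁ hn₂ hg hs hb
    (f := pol G P.w P.Y x) (h := pol G P.w P.Y y)
    (D := fun u o j =>
      ((if G.valid u then blk P.w P.Y (if o then y else x) (G.idx u) j else 0 : ℕ) : ℤ))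
    (F := ldArr P G (2 ^ (G.s - 1) * G.N) x y)
    (fun u _ o j _ => ⟨ldArr_eq hx hy u o j, by simp [ldArr, cZero]⟩)
    (fun u _ o j _ => by
      have h1 : (if G.valid u then blk P.w P.Y (if o then y else x) (G.idx u) j else 0) ≤
          2 ^ P.w := by
        by_cases hv : G.valid u = true
        · rw [if_pos hv]
          exact (Vale.Agent.P338.R3.H50.blk_lt _ _ _ _ _).le
        · rw [if_neg hv]
          positivity
      rw [abs_of_nonneg (by positivity)]
      exact_mod_cast h1)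
    (fun u _ j _ => by rw [coeff_pol]; simp)
    (fun u _ j _ => by rw [coeff_pol]; simp)
    (k := fun u j => ((if G.valid u then prodW P.w P.Y x y (G.idx u) j else 0 : ℕ) : ℤ))
    (fun u hu j _ => by
      rw [hmain x y hx hy u hu]
      split_ifs with hv
      · rw [coeff_cyc P.w P.Y x y j (by omega) hx hy (hlt u hu hv)]
        push_cast
        rfl
      · simp)
    hu hj
  rw [if_pos hval] at key
  exact key

end Vale.Agent.P338.R3.H328
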