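import Vale.Agent.P338.R3.H328.NumGeo
import Vale.Agent.P338.R3.H352.Mat
import Vale.Agent.P338.R3.H900.DcPT
import Vale.Agent.P338.R3.H900.Wd

/-!
P338-D, NUM (3): the numerical statement for the diagonals `Dc` and the program `lprog`; the words
of the constants.
-/

namespace Vale.Agent.P338.R3.H328

open Finset Polynomial
open Vale.Agent.P338.R3.H968 (CPar Cell sg)
open Vale.Agent.P338.R3.H898 (wv)
open Vale.Agent.P338.R3.H282 (Geo DC St exs)
open Vale.Agent.P338.R3.H352 (Dc lval lprog)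
open Vale.Agent.P338.R3.H900 (lvc norm_lvc)
open Vale.Agent.P338.R3.H334 (mzSt mzs prZ)
open Vale.Agent.P338.R3.H257 (MArr runS ldArr nP nM Num)
open Vale.Agent.P338.R3.H121
open Vale.Agent.P338.R3.H501.Rad

theorem length_lprog (a : ℕ) : (lprog a).length = 48 * a + 30 := by
  unfold lprog
  rw [List.length_map, Vale.Agent.P338.R3.H352.length_prog]

theorem norm_val_lvc (d s : ℕ) (c : DC Dc) (u : ℕ) :
    ‖(geo d s).val (lvc (aR d)) c u‖ ≤ 2 ^ lgK (geo d s) (.dg c) :=
  Vale.Agent.P338.R3.H288.norm_val_lgK (fun i c p => by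
    refine (norm_lvc (sR_pos d i) c p).trans ?_
    rw [geo_a, pow_add]
    have : (0 : ℝ) < 2 ^ aR d := by positivity
    linarith) (fun i => sR_le d i) c u

theorem norm_val_lval (d s : ℕ) (c : DC Dc) (u : ℕ) :
    ‖(geo d s).val (lval (aR d)) c u‖ ≤ 2 ^ lgK (geo d s) (.dg c) :=
  Vale.Agent.P338.R3.H288.norm_val_geo d s c u

/-- **NUM**, final form: `W c u` = the two words of the constant of the diagonal `c` at `u`. -/
theorem num_words {d s : ℕ} (y : ℕ) (hs1 : 1 ≤ s) (hds : d ≤ s) {lv : ℕ → Dc → ℕ → ℂ}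
    (hlv : lv = lval (aR d) ∨ lv = lvc (aR d)) {W : DC Dc → ℕ → List Bool × List Bool}
    (hW : ∀ c, St.dg c ∈ (geo d s).fwd (lprog (aR d)) ++ (geo d s).bwd (lprog (aR d)) →
      ∀ u < 2 ^ (aR d * d + s),
      |((sg (bW d s y) (wv (W c u).1) : ℤ) : ℝ) -
        2 ^ sc d s y * ((geo d s).val lv c u).re| ≤ 1 ∧
      |((sg (bW d s y) (wv (W c u).2) : ℤ) : ℝ) -
        2 ^ sc d s y * ((geo d s).val lv c u).im| ≤ 1)
    (hmain : ExMain (geo d s) lv (lprog (aR d)) (wW d s y) (2 ^ y)) :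
    Num (cpar d s y) (geo d s) (2 ^ (s - 1) * NR d)
      (mzSt (cpar d s y).b (cpar d s y).s fun c u => (wv (W c u).1, wv (W c u).2))
      (fun F u => prZ (cpar d s y).b (cpar d s y).s (F u))
      ((geo d s).fwd (lprog (aR d))) ((geo d s).bwd (lprog (aR d))) := by
  refine num_geo y hs1 hds (length_lprog _).le (fun c _ u _ => ?_) hW hmain
  rcases hlv with rfl | rfl
  · exact norm_val_lval d s c u
  · exact norm_val_lvc d s c u

/-- The inequality of the words: `H900.CPT.export` gives it for the exported words. -/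
theorem two_mul_lt {d s : ℕ} (y : ℕ) {prog : List (Vale.Agent.P338.R3.H282.Ly Dc)}
    (hp : prog.length ≤ 48 * aR d + 30) {lv : ℕ → Dc → ℕ → ℂ} {c : DC Dc}
    (hc : St.dg c ∈ (geo d s).fwd prog ++ (geo d s).bwd prog) {u : ℕ}
    (hn : ‖(geo d s).val lv c u‖ ≤ 2 ^ lgK (geo d s) (.dg c)) :
    2 * (2 ^ sc d s y * ‖(geo d s).val lv c u‖ + 1) < 2 ^ bW d s y := by
  have hW := le_wW (d := d) (s := s) y
  obtain ⟨hl1, hl2⟩ := lam_le prog y hp (d := d) (s := s)
  have h1 : lgK (geo d s) (.dg c) ≤ wW d s y := by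
    rcases List.mem_append.1 hc with h | h
    · exact (le_tot _ h).trans hl1
    · exact (le_tot _ h).trans hl2
  have h2 : (2 : ℝ) ^ sc d s y * ‖(geo d s).val lv c u‖ ≤ 2 ^ (17 * wW d s y) := by
    calc (2 : ℝ) ^ sc d s y * ‖(geo d s).val lv c u‖ ≤ 2 ^ sc d s y * 2 ^ wW d s y :=
          mul_le_mul_of_nonneg_left (hn.trans (pow_le_pow_right₀ (by norm_num) h1))
            (by positivity)
      _ = 2 ^ (17 * wW d s y) := by
          have e : sc d s y + wW d s y = 17 * wW d s y := by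
            unfold sc
            ring
          rw [← pow_add, e]
  have h3 : (1 : ℝ) ≤ 2 ^ (17 * wW d s y) := one_le_pow₀ (by norm_num)
  have h4 : (2 : ℝ) ^ (17 * wW d s y) * 2 ^ 2 < 2 ^ bW d s y := by
    rw [← pow_add]
    refine pow_lt_pow_right₀ (by norm_num) ?_
    unfold bW
    omega
  linarith

end Vale.Agent.P338.R3.H328
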