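import Vale.Agent.P338.R3.H328.Num
import Vale.Agent.P338.R3.H121.Par
import Vale.Agent.P338.R3.H955.CrtRad

/-!
P338-D, NUM (2): the numerical statement for the parameters `(d, s, y)`: geometry `H121.geo d s`,
cells `H121.cpar d s y`.
-/

namespace Vale.Agent.P338.R3.H328

open Finset Polynomial
open Vale.Agent.P338.R3.H968 (CPar Cell sg)
open Vale.Agent.P338.R3.H898 (wv)
open Vale.Agent.P338.R3.H282 (Geo Ly DC St exs)
open Vale.Agent.P338.R3.H334 (mzSt mzs prZ cmZ mulWord wrap CApp lgSt nSt StBits Cq)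
open Vale.Agent.P338.R3.H257 (MArr runS ldArr nP nM Num)
open Vale.Agent.P338.R3.H413 (GOk)
open Vale.Agent.P338.R3.H121
open Vale.Agent.P338.R3.H501.Rad

variable {δ : Type}

theorem geo_N (d s : ℕ) : (geo d s).N = NR d := Vale.Agent.P338.R3.H955.up_sR d

theorem gok_geo (d s : ℕ) : GOk (geo d s) := fun k _ => ⟨sR_pos d k, sR_le d k⟩

/-- The machine only sees the residues of the constants. -/
theorem mzSt_congr {b s : ℕ} {C C' : DC δ → ℕ → ℤ × ℤ}
    (h : ∀ c u, wrap b (C c u).1 = wrap b (C' c u).1 ∧ wrap b (C c u).2 = wrap b (C' c u).2) :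
    mzSt b s C = mzSt b s C' := by
  funext st F
  cases st with
  | dn J => rfl
  | up J => rfl
  | dg c =>
    funext u o r j
    have h1 := (h c u).1
    have h2 := (h c u).2
    simp only [mzSt, cmZ, mulWord, h1, h2]

theorem wrap_wrap (b : ℕ) (z : ℤ) : wrap b (wrap b z) = wrap b z := by
  unfold wrap
  exact Int.bmod_bmod

/-- A weight of a member is at most the total. -/
theorem le_tot (v : St δ → ℕ) {l : List (St δ)} {st : St δ} (h : st ∈ l) : v st ≤ tot v l :=
  List.le_sum_of_mem (List.mem_map_of_mem h)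

theorem sum_lgSt_le (G : Geo) (l : List (St δ)) :
    (l.map (lgSt fun c => lgK G (.dg c))).sum ≤ tot (lgK G) l + l.length := by
  induction l with
  | nil => simp
  | cons st l ih =>
    rw [List.map_cons, List.sum_cons, tot_cons, List.length_cons]
    have : lgSt (fun c => lgK G (.dg c)) st ≤ lgK G st + 1 := by
      cases st with
      | dn J => simp [lgSt, lgK]
      | up J => simp [lgSt, lgK]
      | dg c => simp [lgSt]
    omega

theorem sum_nSt_le (G : Geo) (l : List (St δ)) :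
    (l.map nSt).sum ≤ tot (lgK G) l + l.length := by
  induction l with
  | nil => simp
  | cons st l ih =>
    rw [List.map_cons, List.sum_cons, tot_cons, List.length_cons]
    have : nSt st ≤ lgK G st + 1 := by
      cases st with
      | dn J => simp [nSt, lgK]
      | up J => simp [nSt, lgK]
      | dg c => simp [nSt]
    omega

/-- **NUM** for the parameters `(d, s, y)`. The constants `C` of the machine enter only through their
signed residues. -/
theorem num_geo {d s : ℕ} (y : ℕ) (hs1 : 1 ≤ s) (hds : d ≤ s) {lv : ℕ → δ → ℕ → ℂ} {prog : List (Ly δ)}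
    (hp : prog.length ≤ 48 * aR d + 30) {C : DC δ → ℕ → ℤ × ℤ}
    (hlv : ∀ c, St.dg c ∈ (geo d s).fwd prog ++ (geo d s).bwd prog → ∀ u < 2 ^ (aR d * d + s),
      ‖(geo d s).val lv c u‖ ≤ 2 ^ lgK (geo d s) (.dg c))
    (hC : ∀ c, St.dg c ∈ (geo d s).fwd prog ++ (geo d s).bwd prog → ∀ u < 2 ^ (aR d * d + s),
      |((sg (bW d s y) (C c u).1 : ℤ) : ℝ) - 2 ^ sc d s y * ((geo d s).val lv c u).re| ≤ 1 ∧
      |((sg (bW d s y) (C c u).2 : ℤ) : ℝ) - 2 ^ sc d s y * ((geo d s).val lv c u).im| ≤ 1)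
    (hmain : ExMain (geo d s) lv prog (wW d s y) (2 ^ y)) :
    Num (cpar d s y) (geo d s) (2 ^ (s - 1) * NR d)
      (mzSt (cpar d s y).b (cpar d s y).s C)
      (fun F u => prZ (cpar d s y).b (cpar d s y).s (F u))
      ((geo d s).fwd prog) ((geo d s).bwd prog) := by
  have hW := le_wW (d := d) (s := s) y
  have hy := y_le_wW (d := d) (s := s) y
  obtain ⟨hl1, hl2⟩ := lam_le prog y hp (d := d) (s := s)
  obtain ⟨hm1, hm2⟩ := length_le prog y hp (d := d) (s := s)
  have e : mzSt (cpar d s y).b (cpar d s y).s C = mzSt (cpar d s y).b (cpar d s y).s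
      fun c u => (wrap (bW d s y) (C c u).1, wrap (bW d s y) (C c u).2) :=
    mzSt_congr fun c u => ⟨(wrap_wrap _ _).symm, (wrap_wrap _ _).symm⟩
  have hpow : 2 * wW d s y ≤ 2 ^ wW d s y := by
    obtain ⟨t, ht⟩ : ∃ t, wW d s y = t + 1 := ⟨wW d s y - 1, by omega⟩
    rw [ht, pow_succ]
    have : t + 1 ≤ 2 ^ t := Nat.lt_two_pow_self
    omega
  rw [e, ← geo_N d s]
  refine num_gen (Λ := 2 * wW d s y) (g := y + 1) (ν := wW d s y)
    (lg := fun c => lgK (geo d s) (.dg c)) hs1 hds ?_ ?_ ?_ ?_ ?_ ?_ ?_ ?_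
    ?_ hmain
  · intro c hc
    refine ⟨hlv c hc, fun u hu => (hC c hc u hu).1, fun u hu => (hC c hc u hu).2, ?_⟩
    have h1 : lgK (geo d s) (.dg c) ≤ wW d s y := by
      rcases List.mem_append.1 hc with h | h
      · exact (le_tot _ h).trans hl1
      · exact (le_tot _ h).trans hl2
    show lgK (geo d s) (.dg c) + sc d s y + 3 ≤ bW d s y
    unfold sc bW
    omega
  · exact (sum_lgSt_le (geo d s) _).trans (by omega)
  · exact (sum_lgSt_le (geo d s) _).trans (by omega)
  · exact (sum_nSt_le (geo d s) _).trans (by omega)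
  · exact (sum_nSt_le (geo d s) _).trans (by omega)
  · rw [cpar_Y, pow_succ']
  · rw [cpar_w, cpar_s]
    unfold sc
    omega
  · rw [cpar_w, cpar_s, cpar_b]
    unfold sc bW
    omega
  · intro u hu hv
    rw [Vale.Agent.P338.R3.H413.idx_lt_geo (gok_geo d s) hv]
    refine lt_of_lt_of_eq hu ?_
    rw [pow_add, mul_comm]

/-- `ExMain` from the exact theorem for arbitrary arrays. -/
theorem exMain_of {G : Geo} {lv : ℕ → δ → ℕ → ℂ} {prog : List (Ly δ)} {w Y : ℕ} (hs : 1 ≤ G.s)
    (h : ∀ f g : ℕ → ℂ[X], (∀ v, 2 ^ G.s * G.N ≤ v → f v = 0) →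
      (∀ v, 2 ^ G.s * G.N ≤ v → g v = 0) → ∀ u < 2 ^ (G.a * G.d + G.s),
      exs G lv (G.bwd prog) (fun u =>
        exs G lv (G.fwd prog) (fun u => if G.valid u then f (G.idx u) else 0) u *
        exs G lv (G.fwd prog) (fun u => if G.valid u then g (G.idx u) else 0) u) u =
      if G.valid u then ∑ v ∈ range (2 ^ G.s * G.N),
        f v * g ((G.idx u + 2 ^ G.s * G.N - v) % (2 ^ G.s * G.N)) else 0) :
    ExMain G lv prog w Y := by
  intro x y hx hy u hu
  have hM : 2 ^ (G.s - 1) * G.N ≤ 2 ^ G.s * G.N :=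
    Nat.mul_le_mul_right _ (Nat.pow_le_pow_right (by norm_num) (Nat.sub_le _ _))
  exact h (bpoly w Y x) (bpoly w Y y) (fun v hv => bpoly_of_lt hx (hM.trans hv))
    (fun v hv => bpoly_of_lt hy (hM.trans hv)) u hu

end Vale.Agent.P338.R3.H328
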