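import Vale.Agent.P338.R3.H328.NumDc
import Vale.Agent.P338.R3.H282.Exact

/-!
P338-D, NUM (4): the numerical statement without any hypothesis except on the words of the
constants.
-/

namespace Vale.Agent.P338.R3.H328

open Finset Polynomial
open Vale.Agent.P338.R3.H968 (CPar Cell sg)
open Vale.Agent.P338.R3.H898 (wv)
open Vale.Agent.P338.R3.H282 (Geo DC St exs load conv tot exact_main)
open Vale.Agent.P338.R3.H352 (Dc lval lprog)
open Vale.Agent.P338.R3.H900 (lvc lvc_prog)
open Vale.Agent.P338.R3.H334 (mzSt mzs prZ)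
open Vale.Agent.P338.R3.H257 (MArr runS ldArr nP nM Num)
open Vale.Agent.P338.R3.H121 hiding tot
open Vale.Agent.P338.R3.H501.Rad

/-- The cyclic product as a simple sum. -/
theorem conv_eq {R : Type*} [Ring R] {n : ℕ} (f g : ℕ → R) {c : ℕ} (hc : c < n) :
    conv n f g c = ∑ v ∈ range n, f v * g ((c + n - v) % n) := by
  unfold conv
  refine Finset.sum_congr rfl fun i hi => ?_
  have hi' := Finset.mem_range.1 hi
  have hn : 0 < n := by omega
  rw [Finset.sum_eq_single ((c + n - i) % n)]
  · rw [if_pos]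
    have h1 : (i + (c + n - i) % n) % n = (i + (c + n - i)) % n := by
      rw [Nat.add_mod, Nat.mod_mod, ← Nat.add_mod]
    rw [h1, show i + (c + n - i) = c + n by omega, Nat.add_mod_right, Nat.mod_eq_of_lt hc]
  · intro j hj hne
    rw [if_neg]
    intro h
    apply hne
    have hj' := Finset.mem_range.1 hj
    have h2 := Nat.div_add_mod (i + j) n
    rw [h] at h2
    have h3 : (i + j) / n < 2 := Nat.div_lt_of_lt_mul (by omega)
    rcases Nat.lt_or_ge (c + n - i) n with h4 | h4
    · rw [Nat.mod_eq_of_lt h4]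
      interval_cases hq : (i + j) / n
      · omega
      · omega
    · have h5 : (c + n - i) % n = c - i := by
        rw [show c + n - i = (c - i) + n by omega, Nat.add_mod_right, Nat.mod_eq_of_lt (by omega)]
      rw [h5]
      interval_cases hq : (i + j) / n
      · omega
      · omega
  · intro h
    exact absurd (Finset.mem_range.2 (Nat.mod_lt _ hn)) h

/-- `ExMain` for the parameters. -/
theorem exMain_geo {d s : ℕ} (hds : d ≤ s) {lv : ℕ → Dc → ℕ → ℂ}
    (hlv : lv = lval (aR d) ∨ lv = lvc (aR d)) (w Y : ℕ) :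
    ExMain (geo d s) lv (lprog (aR d)) w Y := by
  have : ∀ k, NeZero ((geo d s).q k) := fun k => ⟨(sR_pos d k).ne'⟩
  intro x y hx hy u hu
  have h := exact_main (G := geo d s) (𝔸 := ℂ[X]) (Nat.succ_pos _) (geo_groups d s)
    hds
    (fun i k hi hk => Vale.Agent.P338.R3.H955.hiv_sR (by rw [geo_d] at hi; omega) i k hi hk)
    (fun i => sR_le d i) (fun i => Nat.odd_iff.1 (odd_sR d i)) (lv := lv)
    (fun i c hc p => by
      rcases hlv with rfl | rfl
      · rfl
      · exact lvc_prog hc p)
    (bpoly w Y x) (bpoly w Y y) hu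
  have h2 : load (geo d s) (conv (tot (geo d s)) (bpoly w Y x) (bpoly w Y y)) u =
      if (geo d s).valid u then
        ∑ v ∈ range (2 ^ (geo d s).s * (geo d s).N), bpoly w Y x v *
          bpoly w Y y (((geo d s).idx u + 2 ^ (geo d s).s * (geo d s).N - v) %
            (2 ^ (geo d s).s * (geo d s).N)) else 0 := by
    unfold load
    split_ifs with hv
    · refine conv_eq _ _ ?_
      unfold Vale.Agent.P338.R3.H282.tot
      rw [Vale.Agent.P338.R3.H413.idx_lt_geo (gok_geo d s) hv]
      refine lt_of_lt_of_eq hu ?_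
      rw [pow_add, mul_comm]
    · rfl
  rw [← h2]
  exact h

/-- **NUM.** The only hypothesis: the words of the constants are correct up to one unit. -/
theorem num {d s : ℕ} (y : ℕ) (hs1 : 1 ≤ s) (hds : d ≤ s) {lv : ℕ → Dc → ℕ → ℂ}
    (hlv : lv = lval (aR d) ∨ lv = lvc (aR d)) {W : DC Dc → ℕ → List Bool × List Bool}
    (hW : ∀ c, St.dg c ∈ (geo d s).fwd (lprog (aR d)) ++ (geo d s).bwd (lprog (aR d)) →
      ∀ u < 2 ^ (aR d * d + s),
      |((sg (bW d s y) (wv (W c u).1) : ℤ) : ℝ) -
        2 ^ sc d s y * ((geo d s).val lv c u).re| ≤ 1 ∧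
      |((sg (bW d s y) (wv (W c u).2) : ℤ) : ℝ) -
        2 ^ sc d s y * ((geo d s).val lv c u).im| ≤ 1) :
    Num (cpar d s y) (geo d s) (2 ^ (s - 1) * NR d)
      (mzSt (cpar d s y).b (cpar d s y).s fun c u => (wv (W c u).1, wv (W c u).2))
      (fun F u => prZ (cpar d s y).b (cpar d s y).s (F u))
      ((geo d s).fwd (lprog (aR d))) ((geo d s).bwd (lprog (aR d))) :=
  num_words y hs1 hds hlv hW (exMain_geo hds hlv _ _)

end Vale.Agent.P338.R3.H328
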