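import Vale.Agent.P338.R3.H328.NumMain
import Vale.Agent.P338.R3.H50.MicroFull
import Vale.Agent.P338.R3.H313.Words

/-!
P338-D, NUM (5): the numerical statement for the words of `H313.exists_words`.
-/

namespace Vale.Agent.P338.R3.H328

open Vale.Agent.P338.R3.H968 (CPar sg)
open Vale.Agent.P338.R3.H898 (wv)
open Vale.Agent.P338.R3.H282 (DC St)
open Vale.Agent.P338.R3.H352 (Dc lprog lval)
open Vale.Agent.P338.R3.H900 (wordZ bmod_val_wordZ)
open Vale.Agent.P338.R3.H257 (Num)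
open Vale.Agent.P338.R3.H313 (KP GP fwP bkP PV)
open Vale.Agent.P338.R3.H50 (semP prS)
open Vale.Agent.P338.R3.H121 hiding tot
open Vale.Agent.P338.R3.H501.Rad

/-- The signed value of an exported word. -/
theorem sg_wordZ {b : ℕ} {z : ℤ} {x : ℝ} (hz : |(z : ℝ) - x| ≤ 1) (hx : 2 * (|x| + 1) < 2 ^ b) :
    sg b (wv (wordZ b z)) = z := by
  refine bmod_val_wordZ ?_
  have h1 : |(z : ℝ)| ≤ |x| + 1 := by
    calc |(z : ℝ)| = |((z : ℝ) - x) + x| := by
          congr 1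
          ring
      _ ≤ |(z : ℝ) - x| + |x| := abs_add_le _ _
      _ ≤ |x| + 1 := by linarith
  have h2 : 2 * |(z : ℝ)| < 2 ^ b := by linarith
  exact_mod_cast h2

/-- **NUM** for the words of the control: the form of `H898.NumOK`. -/
theorem num_of_words {cw : PV × DC Dc × ℕ → List Bool × List Bool}
    {Z : PV × DC Dc × ℕ → ℤ × ℤ}
    (hcw : ∀ x, cw x =
      (wordZ (bW x.1.d x.1.s x.1.y) (Z x).1, wordZ (bW x.1.d x.1.s x.1.y) (Z x).2))
    (hZ : ∀ (p : PV) (c : DC Dc), St.dg c ∈ fwP p ++ bkP p → ∀ u,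
      |((Z (p, c, u)).1 : ℝ) - 2 ^ sc p.d p.s p.y *
        ((geo p.d p.s).val (fun q => Dc.val (aR p.d) q) c u).re| ≤ 1 ∧
      |((Z (p, c, u)).2 : ℝ) - 2 ^ sc p.d p.s p.y *
        ((geo p.d p.s).val (fun q => Dc.val (aR p.d) q) c u).im| ≤ 1)
    (p : PV) (hs : 1 ≤ p.s) (hds : p.d ≤ p.s) :
    Num (cpar p.d p.s p.y) (GP p) (2 ^ ((GP p).s - 1) * (GP p).N)
      (semP cw p (cpar p.d p.s p.y)) (prS (cpar p.d p.s p.y)) (fwP p) (bkP p) := by
  have hnum := num (d := p.d) (s := p.s) p.y hs hds (lv := lval (aR p.d)) (Or.inl rfl)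
    (W := fun c u => cw (p, c, u)) (fun c hc u hu => by
      have h1 := two_mul_lt p.y (length_lprog _).le hc (norm_val_lval p.d p.s c u)
      have h2 : ∀ r : ℝ, |r| ≤ ‖(geo p.d p.s).val (lval (aR p.d)) c u‖ →
          2 * (|2 ^ sc p.d p.s p.y * r| + 1) < 2 ^ bW p.d p.s p.y := by
        intro r hr
        rw [abs_mul, abs_of_pos (by positivity : (0 : ℝ) < 2 ^ sc p.d p.s p.y)]
        have := mul_le_mul_of_nonneg_left hr (by positivity : (0 : ℝ) ≤ 2 ^ sc p.d p.s p.y)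
        linarith
      have h3 := hZ p c hc u
      simp only [hcw]
      rw [sg_wordZ h3.1 (h2 _ (Complex.abs_re_le_norm _)),
        sg_wordZ h3.2 (h2 _ (Complex.abs_im_le_norm _))]
      exact h3)
  have e : (GP p).N = NR p.d := geo_N p.d p.s
  rw [e]
  exact hnum

end Vale.Agent.P338.R3.H328
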