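import Vale.Agent.P338.R3.H328.NumMain
import Vale.Agent.P338.R3.H50.MicroFull

/-!
P338-D, JOINT: the acts of the control multiply, for the parameters `p = (d, s, y)`; the only
hypothesis: the payload words are the words of integers `Z` close to the constants.
-/

namespace Vale.Agent.P338.R3.H328

open Vale.Agent.P338.R3.H968 (CPar sg)
open Vale.Agent.P338.R3.H898 (wv Ex)
open Vale.Agent.P338.R3.H282 (DC St)
open Vale.Agent.P338.R3.H352 (Dc lprog)
open Vale.Agent.P338.R3.H900 (lvc wordZ bmod_val_wordZ length_wordZ)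
open Vale.Agent.P338.R3.H257 (blocks D0 nM)
open Vale.Agent.P338.R3.H313 (KP GP fwP bkP nTp nUp insP PV Ctl.acts)
open Vale.Agent.P338.R3.H772 (lval)
open Vale.Agent.P338.R3.H121 hiding tot
open Vale.Agent.P338.R3.H501.Rad

/-- The signed value of an exported word. -/
theorem sg_wv_wordZ {b : ℕ} {z : ℤ} {x : ℝ} (hz : |(z : ℝ) - x| ≤ 1) (hx : 2 * (|x| + 1) < 2 ^ b) :
    sg b (wv (wordZ b z)) = z := by
  refine bmod_val_wordZ ?_
  have h1 : |(z : ℝ)| ≤ |x| + 1 := by
    calc |(z : ℝ)| = |((z : ℝ) - x) + x| := by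
          congr 1
          ring
      _ ≤ |(z : ℝ) - x| + |x| := abs_add_le _ _
      _ ≤ |x| + 1 := by linarith
  have h2 : 2 * |(z : ℝ)| < 2 ^ b := by linarith
  exact_mod_cast h2

/-- The geometric data of the core. -/
theorem cap_eq (d s y : ℕ) : wW d s y * 2 ^ y * (2 ^ (s - 1) * NR d) = cap d s y := by
  unfold cap
  ring

/-- **The acts of the control multiply.** -/
theorem run_geo {cw : PV × DC Dc × ℕ → List Bool × List Bool} {Z : PV × DC Dc × ℕ → ℤ × ℤ}
    (p : PV) (hds : p.d + 1 ≤ p.s)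
    (hcw : ∀ c u, cw (p, c, u) =
      (wordZ (bW p.d p.s p.y) (Z (p, c, u)).1, wordZ (bW p.d p.s p.y) (Z (p, c, u)).2))
    (hZ : ∀ c u,
      |((Z (p, c, u)).1 : ℝ) - 2 ^ sc p.d p.s p.y * ((geo p.d p.s).val (lvc (aR p.d)) c u).re| ≤ 1 ∧
      |((Z (p, c, u)).2 : ℝ) - 2 ^ sc p.d p.s p.y * ((geo p.d p.s).val (lvc (aR p.d)) c u).im| ≤ 1)
    (x y : List Bool) (hx : x.length = cap p.d p.s p.y) (hy : y.length = cap p.d p.s p.y) :
    ∃ D2, Ex (cpar p.d p.s p.y) (Ctl.acts nTp nUp (insP cw) p)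
        (D0 (blocks (wW p.d p.s p.y * 2 ^ p.y) (2 ^ (p.s - 1) * NR p.d) x)
          (blocks (wW p.d p.s p.y * 2 ^ p.y) (2 ^ (p.s - 1) * NR p.d) y)) D2 ∧
      D2.out.length = 2 * cap p.d p.s p.y ∧ lval D2.out = lval x * lval y := by
  have hN := geo_N p.d p.s
  have hc := cap_eq p.d p.s p.y
  have hw := le_wW (d := p.d) (s := p.s) p.y
  have hnum := num (d := p.d) (s := p.s) p.y (by omega) (by omega) (lv := lvc (aR p.d)) (Or.inr rfl)
    (W := fun c u => cw (p, c, u)) (fun c hc u hu => by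
      have h1 := two_mul_lt p.y (length_lprog _).le hc (norm_val_lvc p.d p.s c u)
      have h2 : ∀ r : ℝ, |r| ≤ ‖(geo p.d p.s).val (lvc (aR p.d)) c u‖ →
          2 * (|2 ^ sc p.d p.s p.y * r| + 1) < 2 ^ bW p.d p.s p.y := by
        intro r hr
        rw [abs_mul, abs_of_pos (by positivity : (0 : ℝ) < 2 ^ sc p.d p.s p.y)]
        have := mul_le_mul_of_nonneg_left hr (by positivity : (0 : ℝ) ≤ 2 ^ sc p.d p.s p.y)
        linarith
      simp only [hcw]
      rw [sg_wv_wordZ (hZ c u).1 (h2 _ (Complex.abs_re_le_norm _)),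
        sg_wv_wordZ (hZ c u).2 (h2 _ (Complex.abs_im_le_norm _))]
      exact hZ c u)
  have h := Vale.Agent.P338.R3.H50.run_full cw p (P := cpar p.d p.s p.y) (cpar_ok _ _ _)
    (by omega) (by omega)
    (fun c u _ => by
      rw [hcw]
      exact ⟨length_wordZ _ _, length_wordZ _ _⟩)
    (by
      show Vale.Agent.P338.R3.H257.Num (cpar p.d p.s p.y) (geo p.d p.s)
        (2 ^ (p.s - 1) * (geo p.d p.s).N) _ _ _ _
      rw [hN]
      exact hnum)
    (by
      rw [cpar_s]
      unfold sc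
      omega)
    (by
      refine unload_ineq (M := nM (GP p)) ?_
      show 2 ^ p.s * (geo p.d p.s).N ≤ _
      rw [hN]
      unfold kB
      rw [pow_add]
      exact Nat.mul_le_mul_left _ (NR_le_pow p.d))
    x y (by
      show _ = wW p.d p.s p.y * 2 ^ p.y * (2 ^ (p.s - 1) * (geo p.d p.s).N)
      rw [hN, hc, hx])
    (by
      show _ = wW p.d p.s p.y * 2 ^ p.y * (2 ^ (p.s - 1) * (geo p.d p.s).N)
      rw [hN, hc, hy])
  have e : (GP p).N = NR p.d := hN
  rw [e] at h
  simp only [cpar_w, cpar_Y] at h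
  rw [hc] at h
  exact h

end Vale.Agent.P338.R3.H328
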