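import Vale.Agent.P338.R3.H898.Arr
import Vale.Agent.P338.R3.H334.Glue

/-!
P338-D, JOINT (2): the flat array of cells of the machine (`H898.Arr`, index `4 u + 2 o + r`) and the
arrays `position → operand → imaginary part → cell` of FIX (`H334.Glue`).
-/

namespace Vale.Agent.P338.R3.H328

open Vale.Agent.P338.R3.H968 (CPar Cell sg cLoad)
open Vale.Agent.P338.R3.H282 (St DC dnF upF)
open Vale.Agent.P338.R3.H898 (dgC stC runC ldC cZero wv)
open Vale.Agent.P338.R3.H334 (RArr rDiag rProd)

/-- The array of FIX of a flat array. -/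
def un4 (F : ℕ → Cell) : RArr ℕ := fun u o r => F (4 * u + (2 * o.toNat + r.toNat))

theorem lt_four (o r : Bool) : 2 * o.toNat + r.toNat < 4 := by
  cases o <;> cases r <;> simp

theorem testBit_four (u e b : ℕ) (he : e < 4) : (4 * u + e).testBit (b + 2) = u.testBit b := by
  have h : (4 * u + e) / 2 ^ 2 = u := by omega
  rw [← h, Nat.testBit_div_two_pow, h, Nat.add_comm]

theorem un4_dnF (b : ℕ) (F : ℕ → Cell) : un4 (dnF (b + 2) F) = dnF b (un4 F) := by
  funext u o r
  have h1 := testBit_four u _ b (lt_four o r)
  simp only [un4, dnF, h1]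
  have h2 : 4 * u + (2 * o.toNat + r.toNat) + 2 ^ (b + 2) =
      4 * (u + 2 ^ b) + (2 * o.toNat + r.toNat) := by ring
  rw [h2]
  split_ifs <;> rfl

theorem un4_upF (b : ℕ) (F : ℕ → Cell) : un4 (upF (b + 2) F) = upF b (un4 F) := by
  funext u o r
  have h1 := testBit_four u _ b (lt_four o r)
  simp only [un4, upF, h1]
  by_cases h : u.testBit b = true
  · have h3 : 2 ^ b ≤ u := Nat.ge_two_pow_of_testBit h
    have h2 : 4 * u + (2 * o.toNat + r.toNat) - 2 ^ (b + 2) =
        4 * (u - 2 ^ b) + (2 * o.toNat + r.toNat) := by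
      have : 2 ^ (b + 2) = 4 * 2 ^ b := by ring
      omega
    rw [if_pos h, if_pos h, h2]
    rfl
  · rw [if_neg h, if_neg h]
    rfl

theorem un4_foldr_dn (J : List ℕ) (F : ℕ → Cell) :
    un4 (J.foldr (fun b => dnF (b + 2)) F) = J.foldr dnF (un4 F) := by
  induction J with
  | nil => rfl
  | cons b J ih => rw [List.foldr_cons, un4_dnF, ih, List.foldr_cons]

theorem un4_foldr_up (J : List ℕ) (F : ℕ → Cell) :
    un4 (J.foldr (fun b => upF (b + 2)) F) = J.foldr upF (un4 F) := by
  induction J with
  | nil => rfl
  | cons b J ih => rw [List.foldr_cons, un4_upF, ih, List.foldr_cons]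

/-- The constants of a table of words. -/
def wC (W : ℕ → List Bool × List Bool) (u : ℕ) (_o : Bool) : ℤ × ℤ :=
  (wv (W u).1, wv (W u).2)

theorem un4_dgC (P : CPar) (W : ℕ → List Bool × List Bool) (F : ℕ → Cell) :
    un4 (dgC P W F) = rDiag P.b P.s (wC W) (un4 F) := by
  funext u o r
  have h1 : (4 * u + (2 * o.toNat + r.toNat)) / 4 = u := by
    have := lt_four o r
    omega
  cases r
  · have h2 : (4 * u + (2 * o.toNat + false.toNat)) % 2 = 0 := by
      simp only [Bool.toNat_false]
      omega
    simp only [un4, dgC, h1, h2, if_true]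
    funext j
    simp only [rDiag, Bool.false_eq_true, if_false]
    rfl
  · have h2 : (4 * u + (2 * o.toNat + true.toNat)) % 2 ≠ 0 := by
      simp only [Bool.toNat_true]
      omega
    have h3 : 4 * u + (2 * o.toNat + true.toNat) - 1 = 4 * u + (2 * o.toNat + false.toNat) := by
      simp only [Bool.toNat_true, Bool.toNat_false]
      omega
    simp only [un4, dgC, h1, if_neg h2, h3]
    funext j
    simp only [rDiag, if_true]
    rfl

theorem un4_prC (P : CPar) (F : ℕ → Cell) :
    un4 (Vale.Agent.P338.R3.H898.prC P F) = rProd P.b P.s (un4 F) := by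
  funext u o r
  cases o
  · cases r
    · have h2 : (4 * u + (2 * false.toNat + false.toNat)) % 4 = 0 := by
        simp only [Bool.toNat_false]
        omega
      simp only [un4, Vale.Agent.P338.R3.H898.prC, if_pos h2]
      funext j
      simp only [rProd, Bool.false_eq_true, if_false]
      rfl
    · have h2 : (4 * u + (2 * false.toNat + true.toNat)) % 4 = 1 := by
        simp only [Bool.toNat_false, Bool.toNat_true]
        omega
      have h0 : (4 * u + (2 * false.toNat + true.toNat)) % 4 ≠ 0 := by omega
      simp only [un4, Vale.Agent.P338.R3.H898.prC, if_neg h0, if_pos h2]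
      funext j
      simp only [rProd, Bool.false_eq_true, if_false, if_true]
      rfl
  · have h2 : (4 * u + (2 * true.toNat + r.toNat)) % 4 ≠ 0 := by
      simp only [Bool.toNat_true]
      have := Bool.toNat_lt r
      omega
    have h3 : (4 * u + (2 * true.toNat + r.toNat)) % 4 ≠ 1 := by
      simp only [Bool.toNat_true]
      have := Bool.toNat_lt r
      omega
    simp only [un4, Vale.Agent.P338.R3.H898.prC, if_neg h2, if_neg h3]
    funext j
    simp only [rProd, if_true]
    rfl

/-- A step on the arrays of FIX. -/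
def stR {δ : Type} (P : CPar) (W : DC δ → ℕ → List Bool × List Bool) :
    St δ → RArr ℕ → RArr ℕ
  | .dn J, x => J.foldr dnF x
  | .up J, x => J.foldr upF x
  | .dg c, x => rDiag P.b P.s (wC (W c)) x

/-- A list of steps on the arrays of FIX, first step first. -/
def runR {δ : Type} (P : CPar) (W : DC δ → ℕ → List Bool × List Bool) (l : List (St δ))
    (x : RArr ℕ) : RArr ℕ := l.foldl (fun x st => stR P W st x) x

theorem un4_stC {δ : Type} (P : CPar) (W : DC δ → ℕ → List Bool × List Bool) (st : St δ)
    (F : ℕ → Cell) : un4 (stC P W st F) = stR P W st (un4 F) := by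
  cases st with
  | dn J => exact un4_foldr_dn J F
  | up J => exact un4_foldr_up J F
  | dg c => exact un4_dgC P (W c) F

/-- **The flat run is the run of FIX.** -/
theorem un4_runC {δ : Type} (P : CPar) (W : DC δ → ℕ → List Bool × List Bool) (l : List (St δ))
    (F : ℕ → Cell) : un4 (runC P W l F) = runR P W l (un4 F) := by
  induction l using List.reverseRecOn with
  | nil => rfl
  | append_singleton l a ih =>
    have e1 : runC P W (l ++ [a]) F = stC P W a (runC P W l F) := by simp [runC]
    have e2 : runR P W (l ++ [a]) (un4 F) = stR P W a (runR P W l (un4 F)) := by simp [runR]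
    rw [e1, un4_stC, ih, e2]

/-- The array after loading. -/
theorem un4_ldC (P : CPar) (sel : ℕ → Bool) (idx : ℕ → ℕ) (bx bxy : ℕ → List Bool) (u : ℕ)
    (o r : Bool) : un4 (ldC P sel idx bx bxy) u o r =
      if r then fun _ => 0
      else if sel u then cLoad P (Vale.Agent.P338.R2.H778.val (if o then bxy (idx u) else bx (idx u)))
      else fun _ => 0 := by
  have h1 : (4 * u + (2 * o.toNat + r.toNat)) / 4 = u := by
    have := lt_four o r
    omega
  have h2 : (4 * u + (2 * o.toNat + r.toNat)) % 4 = 2 * o.toNat + r.toNat := by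
    have := lt_four o r
    omega
  simp only [un4, ldC, h1, h2]
  cases o <;> cases r <;> cases sel u <;> simp <;> rfl

end Vale.Agent.P338.R3.H328
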